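import Mathlib

/-!
Second moments of the hash functions `x ↦ a x + b` modulo a prime.
-/

namespace Vale.Agent.P313.H577

open Finset

variable {Q : ℕ} [hQ : Fact Q.Prime]

/-- The hash function with parameters `h`. -/
def hv (h : ZMod Q × ZMod Q) (x : ℕ) : ℕ := (h.1.val * x + h.2.val) % Q

theorem hv_eq (h : ZMod Q × ZMod Q) (x : ℕ) : hv h x = (h.1 * (x : ZMod Q) + h.2).val := by
  have h1 : h.1 * (x : ZMod Q) + h.2 = ((h.1.val * x + h.2.val : ℕ) : ZMod Q) := by
    push_cast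
    rw [ZMod.natCast_zmod_val, ZMod.natCast_zmod_val]
  rw [h1, ZMod.val_natCast]
  rfl

theorem hv_lt (h : ZMod Q × ZMod Q) (x : ℕ) : hv h x < Q := Nat.mod_lt _ hQ.out.pos

theorem sum_range_zmod {M : Type*} [AddCommMonoid M] (F : ℕ → M) :
    ∑ x ∈ range Q, F x = ∑ z : ZMod Q, F z.val := by
  refine Finset.sum_bij' (fun x _ => (x : ZMod Q)) (fun z _ => z.val) ?_ ?_ ?_ ?_ ?_
  · intro x _; exact mem_univ _
  · intro z _; exact mem_range.2 (ZMod.val_lt z)
  · intro x hx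
    exact ZMod.val_cast_of_lt (mem_range.1 hx)
  · intro z _
    exact ZMod.natCast_zmod_val z
  · intro x hx
    rw [ZMod.val_cast_of_lt (mem_range.1 hx)]

theorem pair_ne {x x' : ZMod Q} (hx : x ≠ x') (f g : ZMod Q → ℚ) :
    ∑ h : ZMod Q × ZMod Q, f (h.1 * x + h.2) * g (h.1 * x' + h.2) =
      (∑ y, f y) * ∑ y, g y := by
  have hinj : Function.Injective
      (fun h : ZMod Q × ZMod Q => (h.1 * x + h.2, h.1 * x' + h.2)) := by
    rintro ⟨a, b⟩ ⟨a', b'⟩ he
    simp only [Prod.mk.injEq] at he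
    obtain ⟨h1, h2⟩ := he
    have h3 : (a - a') * (x - x') = 0 := by linear_combination h1 - h2
    have h4 : a = a' := by
      rcases mul_eq_zero.1 h3 with h | h
      · exact sub_eq_zero.1 h
      · exact absurd (sub_eq_zero.1 h) hx
    subst h4
    have h5 : b = b' := by linear_combination h1
    rw [h5]
  have hbij := (Finite.injective_iff_bijective).1 hinj
  rw [Function.Bijective.sum_comp hbij (fun z : ZMod Q × ZMod Q => f z.1 * g z.2),
    Fintype.sum_prod_type, Finset.sum_mul_sum]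

theorem pair_eq (x : ZMod Q) (f : ZMod Q → ℚ) :
    ∑ h : ZMod Q × ZMod Q, f (h.1 * x + h.2) = Q * ∑ y, f y := by
  rw [Fintype.sum_prod_type]
  have h1 : ∀ a : ZMod Q, ∑ b : ZMod Q, f (a * x + b) = ∑ y, f y := fun a =>
    Fintype.sum_equiv (Equiv.addLeft (a * x)) _ _ (fun b => rfl)
  simp only [h1, sum_const, card_univ, ZMod.card, nsmul_eq_mul]

/-- The second moment. -/
theorem moment (S : Finset ℕ) (hS : S ⊆ range Q) (f : ℕ → ℚ) (hf : ∑ y ∈ range Q, f y = 0) :
    ∑ h : ZMod Q × ZMod Q, (∑ x ∈ S, f (hv h x)) ^ 2 =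
      #S * (Q * ∑ y ∈ range Q, f y ^ 2) := by
  have hf' : ∑ z : ZMod Q, f z.val = 0 := by rw [← sum_range_zmod]; exact hf
  have key : ∀ x ∈ S, ∀ x' ∈ S, ∑ h : ZMod Q × ZMod Q, f (hv h x) * f (hv h x') =
      if x = x' then Q * ∑ y ∈ range Q, f y ^ 2 else 0 := by
    intro x hx x' hx'
    split_ifs with he
    · subst he
      have := pair_eq (Q := Q) (x : ZMod Q) (fun z => f z.val ^ 2)
      rw [sum_range_zmod (Q := Q) (fun y => f y ^ 2), ← this]
      refine sum_congr rfl fun h _ => ?_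
      rw [hv_eq]; ring
    · have hne : (x : ZMod Q) ≠ (x' : ZMod Q) := by
        intro h
        apply he
        have := congrArg ZMod.val h
        rwa [ZMod.val_cast_of_lt (mem_range.1 (hS hx)),
          ZMod.val_cast_of_lt (mem_range.1 (hS hx'))] at this
      have := pair_ne hne (fun z => f z.val) (fun z => f z.val)
      rw [hf', zero_mul] at this
      rw [← this]
      refine sum_congr rfl fun h _ => ?_
      rw [hv_eq, hv_eq]
  calc ∑ h : ZMod Q × ZMod Q, (∑ x ∈ S, f (hv h x)) ^ 2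
      = ∑ h : ZMod Q × ZMod Q, ∑ x ∈ S, ∑ x' ∈ S, f (hv h x) * f (hv h x') := by
        refine sum_congr rfl fun h _ => ?_
        rw [sq, Finset.sum_mul_sum]
    _ = ∑ x ∈ S, ∑ x' ∈ S, ∑ h : ZMod Q × ZMod Q, f (hv h x) * f (hv h x') := by
        rw [Finset.sum_comm]
        refine sum_congr rfl fun x _ => ?_
        rw [Finset.sum_comm]
    _ = ∑ x ∈ S, ∑ x' ∈ S, (if x = x' then Q * ∑ y ∈ range Q, f y ^ 2 else 0) := by
        refine sum_congr rfl fun x hx => sum_congr rfl fun x' hx' => key x hx x' hx'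
    _ = #S * (Q * ∑ y ∈ range Q, f y ^ 2) := by
        have : ∀ x ∈ S, ∑ x' ∈ S, (if x = x' then (Q : ℚ) * ∑ y ∈ range Q, f y ^ 2 else 0) =
            Q * ∑ y ∈ range Q, f y ^ 2 := by
          intro x hx
          rw [Finset.sum_ite_eq, if_pos hx]
        rw [sum_congr rfl this, sum_const, nsmul_eq_mul]

/-- The deviation of the pair `(x, h x)` from independence. -/
theorem moment_dev (P R : ℕ → Prop) [DecidablePred P] [DecidablePred R] :
    ∑ h : ZMod Q × ZMod Q, ((#{x ∈ range Q | P x ∧ R (hv h x)} : ℚ) / Q -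
      (#{x ∈ range Q | P x} : ℚ) / Q * ((#{y ∈ range Q | R y} : ℚ) / Q)) ^ 2 ≤
      (#{x ∈ range Q | P x} : ℚ) * (#{y ∈ range Q | R y} : ℚ) / Q := by
  have hQ0 : (0 : ℚ) < Q := by exact_mod_cast hQ.out.pos
  set S := {x ∈ range Q | P x} with hS
  set ρ : ℚ := (#{y ∈ range Q | R y} : ℚ) / Q with hρ
  set f : ℕ → ℚ := fun y => (if R y then 1 else 0) - ρ with hf
  have hcard : ∑ y ∈ range Q, (if R y then (1 : ℚ) else 0) = #{y ∈ range Q | R y} := by
    rw [Finset.sum_boole]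
  have hf0 : ∑ y ∈ range Q, f y = 0 := by
    simp only [hf, sum_sub_distrib, hcard, sum_const, card_range, nsmul_eq_mul, hρ]
    field_simp
    ring
  have h1 := moment (Q := Q) S (filter_subset _ _) f hf0
  have h2 : ∀ h : ZMod Q × ZMod Q, (#{x ∈ range Q | P x ∧ R (hv h x)} : ℚ) / Q -
      (#S : ℚ) / Q * ρ = (∑ x ∈ S, f (hv h x)) / Q := by
    intro h
    have h3 : ∑ x ∈ S, f (hv h x) = (#{x ∈ range Q | P x ∧ R (hv h x)} : ℚ) - #S * ρ := by
      simp only [hf, sum_sub_distrib, sum_const, nsmul_eq_mul]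
      congr 1
      rw [Finset.sum_boole, hS, Finset.filter_filter]
    rw [h3]
    field_simp
  have h4 : ∑ y ∈ range Q, f y ^ 2 ≤ #{y ∈ range Q | R y} := by
    have h5 : ∀ y, f y ^ 2 = (1 - 2 * ρ) * (if R y then 1 else 0) + ρ ^ 2 := by
      intro y
      simp only [hf]
      split_ifs <;> ring
    simp only [h5, sum_add_distrib, ← mul_sum, hcard, sum_const, card_range, nsmul_eq_mul]
    have h6 : (#{y ∈ range Q | R y} : ℚ) = Q * ρ := by
      rw [hρ, mul_div_cancel₀ _ hQ0.ne']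
    rw [h6]
    have h7 : (0 : ℚ) ≤ Q * ρ ^ 2 := mul_nonneg hQ0.le (sq_nonneg ρ)
    have h8 : (1 - 2 * ρ) * (Q * ρ) + Q * ρ ^ 2 = Q * ρ - Q * ρ ^ 2 := by ring
    rw [h8]
    exact sub_le_self _ h7
  calc ∑ h : ZMod Q × ZMod Q, ((#{x ∈ range Q | P x ∧ R (hv h x)} : ℚ) / Q -
      (#S : ℚ) / Q * ρ) ^ 2
      = (∑ h : ZMod Q × ZMod Q, (∑ x ∈ S, f (hv h x)) ^ 2) / Q ^ 2 := by
        rw [Finset.sum_div]
        refine sum_congr rfl fun h _ => ?_
        rw [h2, div_pow]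
    _ = #S * (∑ y ∈ range Q, f y ^ 2) / Q := by
        rw [h1]
        field_simp
    _ ≤ #S * (#{y ∈ range Q | R y} : ℚ) / Q := by
        gcongr

end Vale.Agent.P313.H577
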