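import Vale.Agent.P313.H577.Mask

/-!
The error of walks with the labels of a good chain.
-/

namespace Vale.Agent.P313.H577

open Finset MW

variable {Q : ℕ}

/-! ### Walks -/

theorem wlk_le {T : ℕ → ℕ → ℕ → ℕ} {N : ℕ} (hT : ∀ p u x, T p u x ≤ N) (lb : ℕ → ℕ) (i : ℕ)
    {u : ℕ} (hu : u ≤ N) : ∀ t, wlk T lb i u t ≤ N
  | 0 => hu
  | _ + 1 => hT _ _ _

theorem wlk_congr {T : ℕ → ℕ → ℕ → ℕ} {lb lb' : ℕ → ℕ} (i u : ℕ) :
    ∀ t, (∀ j < t, lb j = lb' j) → wlk T lb i u t = wlk T lb' i u t
  | 0, _ => rfl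
  | t + 1, h => by
    simp only [wlk]
    rw [wlk_congr i u t fun j hj => h j (by omega), h t (by omega)]

theorem wlk_add (T : ℕ → ℕ → ℕ → ℕ) (lb : ℕ → ℕ) (i u a : ℕ) :
    ∀ t, wlk T lb i u (a + t) = wlk T (fun j => lb (a + j)) (i + a) (wlk T lb i u a) t
  | 0 => rfl
  | t + 1 => by
    have ih := wlk_add T lb i u a t
    rw [← add_assoc]
    simp only [wlk]
    rw [ih, add_assoc]

/-! ### Products -/

theorem one_nonneg (T : ℕ → ℕ → ℕ → ℕ) (p u v : ℕ) : 0 ≤ one Q T p u v := by
  unfold one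
  positivity

theorem one_sum (hQ : 0 < Q) {T : ℕ → ℕ → ℕ → ℕ} {N : ℕ} (hT : ∀ p u x, T p u x ≤ N) (p u : ℕ) :
    ∑ v ∈ range (N + 1), one Q T p u v = 1 := by
  unfold one
  rw [← Finset.sum_div]
  have h1 : ∑ v ∈ range (N + 1), (#{x ∈ range Q | T p u x = v} : ℚ) = Q := by
    rw [← Nat.cast_sum, ← card_eq_sum_card_fiberwise (f := fun x => T p u x)
      (fun x _ => by simpa using Nat.lt_succ_of_le (hT p u x)), card_range]
  rw [h1, div_self (by positivity)]

theorem prq_nonneg (N : ℕ) {m : ℕ → ℕ → ℕ → ℚ} (hm : ∀ p u v, 0 ≤ m p u v) (i : ℕ) :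
    ∀ t u v, 0 ≤ prq N m i t u v
  | 0, u, v => by simp only [prq]; split_ifs <;> norm_num
  | t + 1, u, v => by
    simp only [prq]
    exact sum_nonneg fun s _ => mul_nonneg (prq_nonneg N hm i t u s) (hm _ _ _)

theorem prq_sum (N : ℕ) {m : ℕ → ℕ → ℕ → ℚ} (hm : ∀ p, ∀ u < N, ∑ v ∈ range N, m p u v = 1)
    (i : ℕ) : ∀ t, ∀ u < N, ∑ v ∈ range N, prq N m i t u v = 1
  | 0, u, hu => by simp [prq, hu]
  | t + 1, u, hu => by
    simp only [prq]
    rw [Finset.sum_comm]
    have : ∀ s ∈ range N, ∑ v ∈ range N, prq N m i t u s * m (i + t) s v = prq N m i t u s := by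
      intro s hs
      rw [← mul_sum, hm _ _ (mem_range.1 hs), mul_one]
    rw [sum_congr rfl this]
    exact prq_sum N hm i t u hu

theorem prq_add (N : ℕ) (m : ℕ → ℕ → ℕ → ℚ) (i a : ℕ) {u : ℕ} (hu : u < N) :
    ∀ t, ∀ v < N, prq N m i (a + t) u v =
      ∑ w ∈ range N, prq N m i a u w * prq N m (i + a) t w v
  | 0, v, hv => by
    simp only [add_zero, prq, mul_ite, mul_one, mul_zero]
    rw [Finset.sum_ite_eq' (range N) v, if_pos (mem_range.2 hv)]
  | t + 1, v, hv => by
    rw [← add_assoc]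
    simp only [prq]
    have : ∀ s ∈ range N, prq N m i (a + t) u s * m (i + (a + t)) s v =
        ∑ w ∈ range N, prq N m i a u w * (prq N m (i + a) t w s * m (i + a + t) s v) := by
      intro s hs
      rw [prq_add N m i a hu t s (mem_range.1 hs), sum_mul, ← add_assoc]
      exact sum_congr rfl fun w _ => by ring
    rw [sum_congr rfl this, Finset.sum_comm]
    exact sum_congr rfl fun w _ => by rw [mul_sum]

/-! ### Averages over the seeds -/

/-- The average of the walks with the labels of a chain. -/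
def av (T : ℕ → ℕ → ℕ → ℕ) (ch : List (ZMod Q × ZMod Q)) (i t u v : ℕ) : ℚ :=
  (#{x ∈ range Q | wlk T (fun j => labL ch j x) i u t = v} : ℚ) / Q

/-- The deviation from independence when `h` is put on top of the chain. -/
def dev (T : ℕ → ℕ → ℕ → ℕ) (ch : List (ZMod Q × ZMod Q)) (h : ZMod Q × ZMod Q)
    (i t u w v : ℕ) : ℚ :=
  (#{x ∈ range Q | wlk T (fun j => labL ch j x) i u (2 ^ ch.length) = w ∧
    wlk T (fun j => labL ch j (hv h x)) (i + 2 ^ ch.length) w t = v} : ℚ) / Q -
    (#{x ∈ range Q | wlk T (fun j => labL ch j x) i u (2 ^ ch.length) = w} : ℚ) / Q *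
      ((#{y ∈ range Q | wlk T (fun j => labL ch j y) (i + 2 ^ ch.length) w t = v} : ℚ) / Q)

theorem av_sum (hQ : 0 < Q) {T : ℕ → ℕ → ℕ → ℕ} {N : ℕ} (hT : ∀ p u x, T p u x ≤ N)
    (ch : List (ZMod Q × ZMod Q)) (i t : ℕ) {u : ℕ} (hu : u ≤ N) :
    ∑ v ∈ range (N + 1), av T ch i t u v = 1 := by
  unfold av
  rw [← Finset.sum_div]
  have h1 : ∑ v ∈ range (N + 1),
      (#{x ∈ range Q | wlk T (fun j => labL ch j x) i u t = v} : ℚ) = Q := by
    rw [← Nat.cast_sum, ← card_eq_sum_card_fiberwise
      (f := fun x => wlk T (fun j => labL ch j x) i u t)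
      (fun x _ => by simpa using Nat.lt_succ_of_le (wlk_le hT _ i hu t)), card_range]
  rw [h1, div_self (by positivity)]

theorem av_nonneg (T : ℕ → ℕ → ℕ → ℕ) (ch : List (ZMod Q × ZMod Q)) (i t u v : ℕ) :
    0 ≤ av T ch i t u v := by
  unfold av
  positivity

/-- Shorter times do not use the last member. -/
theorem av_append_of_le (T : ℕ → ℕ → ℕ → ℕ) (ch : List (ZMod Q × ZMod Q)) (h : ZMod Q × ZMod Q)
    (i : ℕ) {t : ℕ} (u v : ℕ) (ht : t ≤ 2 ^ ch.length) :
    av T (ch ++ [h]) i t u v = av T ch i t u v := by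
  unfold av
  congr 3
  refine filter_congr fun x _ => ?_
  rw [wlk_congr (lb' := fun j => labL ch j x) i u t fun j hj => ?_]
  rw [labL_append, Nat.div_eq_of_lt (by omega)]
  simp

/-- Longer times. -/
theorem av_append_add {T : ℕ → ℕ → ℕ → ℕ} {N : ℕ} (hT : ∀ p u x, T p u x ≤ N)
    (ch : List (ZMod Q × ZMod Q)) (h : ZMod Q × ZMod Q)
    (i : ℕ) {t : ℕ} {u : ℕ} (hu : u ≤ N) (v : ℕ) (ht : t ≤ 2 ^ ch.length) :
    av T (ch ++ [h]) i (2 ^ ch.length + t) u v = ∑ w ∈ range (N + 1),
      (av T ch i (2 ^ ch.length) u w * av T ch (i + 2 ^ ch.length) t w v +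
        dev T ch h i t u w v) := by
  have h1 : ∀ w, av T ch i (2 ^ ch.length) u w * av T ch (i + 2 ^ ch.length) t w v +
        dev T ch h i t u w v =
      (#{x ∈ range Q | wlk T (fun j => labL ch j x) i u (2 ^ ch.length) = w ∧
        wlk T (fun j => labL ch j (hv h x)) (i + 2 ^ ch.length) w t = v} : ℚ) / Q := by
    intro w
    unfold av dev
    ring
  simp only [h1]
  rw [← Finset.sum_div, ← Nat.cast_sum]
  unfold av
  congr 2
  have h2 : ∀ x, wlk T (fun j => labL (ch ++ [h]) j x) i u (2 ^ ch.length + t) =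
      wlk T (fun j => labL ch j (hv h x)) (i + 2 ^ ch.length)
        (wlk T (fun j => labL ch j x) i u (2 ^ ch.length)) t := by
    intro x
    rw [wlk_add]
    have h3 : wlk T (fun j => labL (ch ++ [h]) j x) i u (2 ^ ch.length) =
        wlk T (fun j => labL ch j x) i u (2 ^ ch.length) := by
      refine wlk_congr i u _ fun j hj => ?_
      rw [labL_append, Nat.div_eq_of_lt hj]
      simp
    rw [h3]
    refine wlk_congr _ _ t fun j hj => ?_
    rw [labL_append]
    have h4 : (2 ^ ch.length + j) / 2 ^ ch.length % 2 = 1 := by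
      rw [Nat.add_div_left _ (by positivity), Nat.div_eq_of_lt (by omega)]
    rw [if_pos h4]
    have h5 := labL_add 1 ch j (hv h x)
    rw [mul_one, add_comm] at h5
    exact h5
  simp only [h2]
  rw [card_eq_sum_card_fiberwise (t := range (N + 1))
    (f := fun x => wlk T (fun j => labL ch j x) i u (2 ^ ch.length))
    (fun x _ => by simpa using Nat.lt_succ_of_le (wlk_le hT _ i hu _))]
  refine sum_congr rfl fun w _ => ?_
  rw [Finset.filter_filter]
  congr 1
  refine filter_congr fun x _ => ?_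
  constructor
  · rintro ⟨ha, hb⟩
    subst hb
    exact ⟨rfl, ha⟩
  · rintro ⟨ha, hb⟩
    subst ha
    exact ⟨hb, rfl⟩

/-- `h` is bad on top of the chain. -/
def Bad (N s : ℕ) (ε : ℚ) (T : ℕ → ℕ → ℕ → ℕ) (ch : List (ZMod Q × ZMod Q))
    (h : ZMod Q × ZMod Q) : Prop :=
  ∃ i ∈ range (2 ^ s + 1), ∃ t ∈ range (2 ^ s + 1), ∃ u ∈ range (N + 1),
    ε ^ 2 < ∑ w ∈ range (N + 1), ∑ v ∈ range (N + 1), dev T ch h i t u w v ^ 2

theorem dev_l1 (N : ℕ) {ε : ℚ} (hε : 0 < ε) (T : ℕ → ℕ → ℕ → ℕ) (ch : List (ZMod Q × ZMod Q))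
    (h : ZMod Q × ZMod Q) (i t u : ℕ)
    (hd : ∑ w ∈ range (N + 1), ∑ v ∈ range (N + 1), dev T ch h i t u w v ^ 2 ≤ ε ^ 2) :
    ∑ w ∈ range (N + 1), ∑ v ∈ range (N + 1), |dev T ch h i t u w v| ≤ (N + 1) * ε := by
  have h1 : (∑ w ∈ range (N + 1), ∑ v ∈ range (N + 1), |dev T ch h i t u w v|) ^ 2 ≤
      ((N + 1) * ε) ^ 2 := by
    rw [← Finset.sum_product' (range (N + 1)) (range (N + 1))
      (fun w v => |dev T ch h i t u w v|)]
    calc (∑ z ∈ range (N + 1) ×ˢ range (N + 1), |dev T ch h i t u z.1 z.2|) ^ 2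
        ≤ #(range (N + 1) ×ˢ range (N + 1)) *
          ∑ z ∈ range (N + 1) ×ˢ range (N + 1), |dev T ch h i t u z.1 z.2| ^ 2 :=
          sq_sum_le_card_mul_sum_sq
      _ = ((N + 1) * (N + 1)) * ∑ z ∈ range (N + 1) ×ˢ range (N + 1),
            dev T ch h i t u z.1 z.2 ^ 2 := by
          rw [card_product, card_range]
          push_cast
          simp only [sq_abs]
      _ = ((N + 1) * (N + 1)) * ∑ w ∈ range (N + 1), ∑ v ∈ range (N + 1),
            dev T ch h i t u w v ^ 2 := by
          rw [← Finset.sum_product' (range (N + 1)) (range (N + 1))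
            (fun w v => dev T ch h i t u w v ^ 2)]
      _ ≤ ((N + 1) * (N + 1)) * ε ^ 2 := by gcongr
      _ = ((N + 1) * ε) ^ 2 := by ring
  exact abs_le_of_sq_le_sq' h1 (by positivity) |>.2

/-- The error of the walks with the labels of a good chain. -/
theorem chain_error (hQ : 0 < Q) {N s : ℕ} {ε : ℚ} (hε : 0 < ε) {T : ℕ → ℕ → ℕ → ℕ}
    (hT : ∀ p u x, T p u x ≤ N) (ch : List (ZMod Q × ZMod Q))
    (hg : GoodChain (Bad N s ε T) ch) :
    ∀ t ≤ 2 ^ ch.length, ∀ i, i + t ≤ 2 ^ s → ∀ u ≤ N,
      ∑ v ∈ range (N + 1), |av T ch i t u v - prq (N + 1) (one Q T) i t u v| ≤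
        ((t - 1 : ℕ) : ℚ) * ((N + 1) * ε) := by
  induction ch using List.reverseRecOn with
  | nil =>
    intro t ht i _ u hu
    have h1 : ∀ v ∈ range (N + 1), |av T ([] : List (ZMod Q × ZMod Q)) i t u v -
        prq (N + 1) (one Q T) i t u v| = 0 := by
      intro v hv
      simp only [List.length_nil, pow_zero] at ht
      interval_cases t
      · simp only [av, wlk, prq]
        by_cases huv : u = v
        · rw [if_pos huv]
          simp only [huv, filter_true, card_range]
          rw [div_self (by positivity)]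
          simp
        · rw [if_neg huv]
          simp [huv]
      · simp only [av, wlk, prq, labL, add_zero]
        have : ∀ s ∈ range (N + 1), (if u = s then (1 : ℚ) else 0) * one Q T i s v =
            if u = s then one Q T i s v else 0 := by
          intro s _
          split_ifs <;> simp
        rw [sum_congr rfl this, Finset.sum_ite_eq, if_pos (mem_range.2 (by omega))]
        simp [one]
    rw [sum_congr rfl h1]
    simp only [sum_const_zero]
    positivity
  | append_singleton ch h ih =>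
    have hg' : GoodChain (Bad N s ε T) ch := by
      have := hg.take ch.length
      simpa using this
    have hh : ¬ Bad N s ε T ch h := hg ch h [] (by simp)
    have ih' := ih hg'
    intro t ht i hit u hu
    set δ : ℚ := (N + 1) * ε with hδ
    have hδ0 : 0 ≤ δ := by positivity
    by_cases htl : t ≤ 2 ^ ch.length
    · simp only [av_append_of_le T ch h i u _ htl]
      exact ih' t htl i hit u hu
    · push Not at htl
      obtain ⟨t', rfl⟩ : ∃ t', t = 2 ^ ch.length + t' := ⟨t - 2 ^ ch.length, by omega⟩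
      have ht' : t' ≤ 2 ^ ch.length := by
        rw [List.length_append, List.length_singleton, pow_succ] at ht
        omega
      have ht0 : 0 < t' := by omega
      have hpos : 0 < 2 ^ ch.length := by positivity
      set m := one Q T with hm
      have hm1 : ∀ p, ∀ u < N + 1, ∑ v ∈ range (N + 1), m p u v = 1 :=
        fun p u _ => one_sum hQ hT p u
      have hm0 : ∀ p u v, 0 ≤ m p u v := fun p u v => one_nonneg T p u v
      have hd : ∑ w ∈ range (N + 1), ∑ v ∈ range (N + 1), |dev T ch h i t' u w v| ≤ δ := by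
        refine dev_l1 N hε T ch h i t' u ?_
        by_contra hcon
        push Not at hcon
        exact hh ⟨i, mem_range.2 (by omega), t', mem_range.2 (by omega), u,
          mem_range.2 (by omega), hcon⟩
      have e1 := ih' (2 ^ ch.length) le_rfl i (by omega) u hu
      have e2 : ∀ w ∈ range (N + 1), ∑ v ∈ range (N + 1),
          |av T ch (i + 2 ^ ch.length) t' w v - prq (N + 1) m (i + 2 ^ ch.length) t' w v| ≤
          ((t' - 1 : ℕ) : ℚ) * δ := fun w hw =>
        ih' t' ht' (i + 2 ^ ch.length) (by omega) w (by have := mem_range.1 hw; omega)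
      have h1 : ∀ v ∈ range (N + 1), |av T (ch ++ [h]) i (2 ^ ch.length + t') u v -
          prq (N + 1) m i (2 ^ ch.length + t') u v| ≤
          ∑ w ∈ range (N + 1), (|dev T ch h i t' u w v| +
            |av T ch i (2 ^ ch.length) u w - prq (N + 1) m i (2 ^ ch.length) u w| *
              av T ch (i + 2 ^ ch.length) t' w v +
            prq (N + 1) m i (2 ^ ch.length) u w *
              |av T ch (i + 2 ^ ch.length) t' w v -
                prq (N + 1) m (i + 2 ^ ch.length) t' w v|) := by
        intro v hv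
        rw [av_append_add hT ch h i hu v ht',
          prq_add (N + 1) m i _ (show u < N + 1 by omega) t' v (mem_range.1 hv),
          ← Finset.sum_sub_distrib]
        refine (Finset.abs_sum_le_sum_abs _ _).trans (sum_le_sum fun w _ => ?_)
        have a0 := av_nonneg T ch (i + 2 ^ ch.length) t' w v
        have p0 := prq_nonneg (N + 1) hm0 i (2 ^ ch.length) u w
        have : av T ch i (2 ^ ch.length) u w * av T ch (i + 2 ^ ch.length) t' w v +
            dev T ch h i t' u w v -
            prq (N + 1) m i (2 ^ ch.length) u w * prq (N + 1) m (i + 2 ^ ch.length) t' w v =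
            dev T ch h i t' u w v +
            (av T ch i (2 ^ ch.length) u w - prq (N + 1) m i (2 ^ ch.length) u w) *
              av T ch (i + 2 ^ ch.length) t' w v +
            prq (N + 1) m i (2 ^ ch.length) u w *
              (av T ch (i + 2 ^ ch.length) t' w v -
                prq (N + 1) m (i + 2 ^ ch.length) t' w v) := by ring
        rw [this]
        refine (abs_add_le _ _).trans (add_le_add ((abs_add_le _ _).trans ?_) ?_)
        · rw [abs_mul, abs_of_nonneg a0]
        · rw [abs_mul, abs_of_nonneg p0]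
      refine (sum_le_sum h1).trans ?_
      rw [Finset.sum_comm]
      have h2 : ∀ w ∈ range (N + 1), ∑ v ∈ range (N + 1), (|dev T ch h i t' u w v| +
            |av T ch i (2 ^ ch.length) u w - prq (N + 1) m i (2 ^ ch.length) u w| *
              av T ch (i + 2 ^ ch.length) t' w v +
            prq (N + 1) m i (2 ^ ch.length) u w *
              |av T ch (i + 2 ^ ch.length) t' w v -
                prq (N + 1) m (i + 2 ^ ch.length) t' w v|) ≤
          ∑ v ∈ range (N + 1), |dev T ch h i t' u w v| +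
            |av T ch i (2 ^ ch.length) u w - prq (N + 1) m i (2 ^ ch.length) u w| +
            prq (N + 1) m i (2 ^ ch.length) u w * (((t' - 1 : ℕ) : ℚ) * δ) := by
        intro w hw
        rw [sum_add_distrib, sum_add_distrib, ← mul_sum, ← mul_sum,
          av_sum hQ hT ch _ _ (by have := mem_range.1 hw; omega), mul_one]
        have p0 := prq_nonneg (N + 1) hm0 i (2 ^ ch.length) u w
        have := mul_le_mul_of_nonneg_left (e2 w hw) p0
        linarith
      refine (sum_le_sum h2).trans ?_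
      rw [sum_add_distrib, sum_add_distrib, ← sum_mul,
        prq_sum (N + 1) hm1 i _ u (by omega), one_mul]
      have h3 : ((2 ^ ch.length + t' - 1 : ℕ) : ℚ) = 1 + ((2 ^ ch.length - 1 : ℕ) : ℚ) +
          ((t' - 1 : ℕ) : ℚ) := by
        have : 2 ^ ch.length + t' - 1 = 1 + (2 ^ ch.length - 1) + (t' - 1) := by omega
        rw [this]
        push_cast
        ring
      rw [h3, add_mul, add_mul, one_mul]
      linarith

end Vale.Agent.P313.H577
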