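import Vale.Agent.P313.H463.MW.KStmt
import Vale.Agent.P313.H577.Nisan

/-!
Module K3: a pool which passes all tests.
-/

namespace Vale.Agent.P313.H577

open Finset MW

/-! ### Products of stochastic matrices in a range of numbers -/

theorem stoch_prq {N m : ℕ} {M : ℕ → ℕ → ℕ → ℚ} (hM : Stoch N m M) (i : ℕ) :
    ∀ t, i + t ≤ m → ∀ u < N, (∀ v < N, 0 ≤ prq N M i t u v) ∧
      ∑ v ∈ range N, prq N M i t u v = 1
  | 0, _, u, hu => by
    refine ⟨fun v _ => by simp only [prq]; split_ifs <;> norm_num, by simp [prq, hu]⟩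
  | t + 1, ht, u, hu => by
    obtain ⟨h1, h2⟩ := stoch_prq hM i t (by omega) u hu
    refine ⟨fun v hv => ?_, ?_⟩
    · simp only [prq]
      exact sum_nonneg fun s hs => mul_nonneg (h1 s (mem_range.1 hs))
        ((hM (i + t) (by omega) s (mem_range.1 hs)).1 v hv)
    · simp only [prq]
      rw [Finset.sum_comm]
      have : ∀ s ∈ range N, ∑ v ∈ range N, prq N M i t u s * M (i + t) s v =
          prq N M i t u s := by
        intro s hs
        rw [← mul_sum, (hM (i + t) (by omega) s (mem_range.1 hs)).2, mul_one]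
      rw [sum_congr rfl this, h2]

theorem autc_le (N Q : ℕ) (M : ℕ → ℕ → ℕ → ℚ) (p u x : ℕ) : autc N Q M p u x ≤ N := by
  unfold autc
  split_ifs
  · exact (card_filter_le _ _).trans (by simp)
  · exact le_rfl

theorem pow2_le {a b : ℕ} (h : a ≤ b) : (2 : ℚ) ^ a ≤ 2 ^ b :=
  pow_le_pow_right₀ (by norm_num) h

/-- MODULE K3 from the modules C, K1, K2. -/
theorem modK3 (hC : MW.ModC) (hK1 : MW.ModK1) (hK2 : MW.ModK2) : MW.ModK3 := by
  intro π h B0 M hn hM hB
  have h10 := hn.h10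
  have hs1 := hn.s1
  have hsh := hn.sh
  have hQ1 := hn.Q1
  have hnn : π.n = 2 ^ π.s := rfl
  have hn0 : 0 < π.n := by rw [hnn]; positivity
  -- the true matrices of the blocks
  set Mt : ℕ × ℕ → ℕ → ℕ → ℕ → ℚ := fun a p u v =>
    prq π.N M ((a.2 * π.n + p) * π.n ^ a.1) (π.n ^ a.1) u v with hMt
  have hQq : ((2 : ℚ) ^ (40 * h)) ≤ (π.Q : ℚ) := by exact_mod_cast hQ1
  have hQ0 : (0 : ℚ) < (π.Q : ℚ) := lt_of_lt_of_le (by positivity) hQq
  have hNq : (π.N : ℚ) ≤ 2 ^ h := by exact_mod_cast hn.Nh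
  have hN1q : (π.N : ℚ) + 1 ≤ 2 ^ (h + 1) := by
    have : (1 : ℚ) ≤ 2 ^ h := one_le_pow₀ (by norm_num)
    rw [pow_succ]; linarith
  have h2s : (2 : ℚ) ^ π.s + 1 ≤ 2 ^ (h + 1) := by
    have h1 : (2 : ℚ) ^ π.s ≤ 2 ^ h := pow2_le hsh
    have : (1 : ℚ) ≤ 2 ^ h := one_le_pow₀ (by norm_num)
    rw [pow_succ]; linarith
  obtain ⟨al, be, hab, hpool⟩ := hC (ℕ × ℕ) (range π.s ×ˢ range (π.n ^ π.s))
    (fun a => autc π.N π.Q (Mt a)) π.N π.s π.Q (2 ^ (π.s + 3)) (1 / 2 ^ (10 * h))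
    (fun a p u x => autc_le _ _ _ _ _ _) hn.Qp hs1 (by positivity) (by positivity) (by
      push_cast
      calc (2 : ℚ) ^ (π.s + 3) * ((2 : ℚ) ^ π.s + 1) ^ 2 * ((π.N : ℚ) + 1) ^ 2
          ≤ 2 ^ (h + 3) * (2 ^ (h + 1)) ^ 2 * (2 ^ (h + 1)) ^ 2 := by
            gcongr
            · norm_num
        _ = 2 ^ (5 * h + 7) := by
            rw [← pow_mul, ← pow_add, ← pow_add]
            congr 1
            ring
        _ ≤ 2 ^ (20 * h) := pow2_le (by omega)
        _ = 2 ^ (40 * h) * (1 / 2 ^ (10 * h)) ^ 2 := by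
            rw [div_pow, one_pow, ← pow_mul, mul_one_div, eq_div_iff (by positivity), ← pow_add]
            congr 1
            ring
        _ ≤ π.Q * (1 / 2 ^ (10 * h)) ^ 2 := by gcongr) (by
      rw [card_product, card_range, card_range, hnn]
      have h1 : π.s ≤ 2 ^ π.s := Nat.lt_two_pow_self.le
      calc π.s * (2 ^ π.s) ^ π.s * 2 ^ (2 * π.s)
          ≤ 2 ^ π.s * (2 ^ π.s) ^ π.s * 2 ^ (2 * π.s) := by gcongr
        _ = 2 ^ (π.s + π.s * π.s + 2 * π.s) := by rw [← pow_mul, ← pow_add, ← pow_add]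
        _ < 2 ^ ((π.s + 3) * (π.s + 1)) := by
            apply Nat.pow_lt_pow_right (by norm_num)
            nlinarith
        _ = (2 ^ (π.s + 3)) ^ (π.s + 1) := by rw [← pow_mul])
  refine ⟨al, be, hab, ?_⟩
  -- induction over the stages
  intro k
  induction k using Nat.strong_induction_on with
  | _ k ih =>
    intro hk A hA
    have hsound := hK2 π h al be B0 M π.s hn le_rfl hM hB k hk.le
      (fun k' hk' A' hA' => ih k' hk' (hk'.trans hk) A' hA')
    -- the blocks in this stage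
    have hpow : π.n ^ (π.s - k) = π.n ^ (π.s - k - 1) * π.n := by
      rw [← pow_succ]
      congr 1
      omega
    have hblk : ∀ p < π.n, A * π.n + p < π.n ^ (π.s - k) := by
      intro p hp
      rw [hpow]
      calc A * π.n + p < A * π.n + π.n := by omega
        _ = (A + 1) * π.n := by ring
        _ ≤ π.n ^ (π.s - k - 1) * π.n := Nat.mul_le_mul_right _ hA
    have hmA : A < π.n ^ π.s := by
      refine lt_of_lt_of_le hA (Nat.pow_le_pow_right hn0 (by omega))
    have hmem : (k, A) ∈ range π.s ×ˢ range (π.n ^ π.s) := by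
      rw [mem_product]
      exact ⟨mem_range.2 hk, mem_range.2 hmA⟩
    obtain ⟨C, hCl, hCg⟩ := hpool (k, A) hmem
    refine ⟨C, hCl, hK1 π h al be _ (Mt (k, A)) C hn ?_ ?_ ?_⟩
    · -- stochastic
      intro p hp u hu
      have h1 : (A * π.n + p) * π.n ^ k + π.n ^ k ≤ π.n ^ π.s := by
        have h2 := hblk p hp
        calc (A * π.n + p) * π.n ^ k + π.n ^ k = (A * π.n + p + 1) * π.n ^ k := by ring
          _ ≤ π.n ^ (π.s - k) * π.n ^ k := Nat.mul_le_mul_right _ h2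
          _ = π.n ^ π.s := by rw [← pow_add]; congr 1; omega
      exact stoch_prq hM _ _ h1 u hu
    · -- accurate
      intro p hp u hu v hv
      refine (hsound (A * π.n + p) (hblk p hp) u hu v hv).trans ?_
      have hJ : (π.Q : ℚ) ^ π.J = π.Q ^ π.s * π.Q := by rw [hn.J, pow_succ]
      rw [hJ, div_le_div_iff₀ (by positivity) hQ0]
      have h4n : (4 * (π.n : ℚ)) ^ k ≤ 2 ^ ((h + 2) * π.s) := by
        have h1 : (4 * (π.n : ℚ)) ≤ 2 ^ (h + 2) := by
          rw [hnn]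
          push_cast
          have : (2 : ℚ) ^ π.s ≤ 2 ^ h := pow2_le hsh
          calc (4 : ℚ) * 2 ^ π.s ≤ 4 * 2 ^ h := by gcongr
            _ = 2 ^ (h + 2) := by rw [pow_add]; ring
        calc (4 * (π.n : ℚ)) ^ k ≤ (2 ^ (h + 2)) ^ k := by gcongr
          _ = 2 ^ ((h + 2) * k) := by rw [← pow_mul]
          _ ≤ 2 ^ ((h + 2) * π.s) := pow2_le (Nat.mul_le_mul_left _ hk.le)
      have hQs : (2 : ℚ) ^ (40 * h * π.s) ≤ (π.Q : ℚ) ^ π.s := by
        rw [pow_mul]
        gcongr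
      have hmain : 2 * (4 * (π.n : ℚ)) ^ k * π.N ≤ (π.Q : ℚ) ^ π.s := by
        calc 2 * (4 * (π.n : ℚ)) ^ k * π.N ≤ 2 * 2 ^ ((h + 2) * π.s) * 2 ^ h := by gcongr
          _ = 2 ^ (1 + (h + 2) * π.s + h) := by rw [pow_add, pow_add, pow_one]
          _ ≤ 2 ^ (40 * h * π.s) := by
              apply pow2_le
              nlinarith
          _ ≤ (π.Q : ℚ) ^ π.s := hQs
      calc 2 * (4 * (π.n : ℚ)) ^ k * π.N * π.Q ≤ (π.Q : ℚ) ^ π.s * π.Q := by gcongr
        _ = 1 * ((π.Q : ℚ) ^ π.s * π.Q) := by ring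
    · -- the safe cells
      intro i t hit u hu
      refine (hCg i t hit u hu).trans ?_
      have h1 : (2 : ℚ) ^ π.s ≤ 2 ^ h := pow2_le hsh
      calc (2 : ℚ) ^ π.s * (((π.N : ℚ) + 1) * (1 / 2 ^ (10 * h)))
          ≤ 2 ^ h * (2 ^ (h + 1) * (1 / 2 ^ (10 * h))) := by gcongr
        _ = 2 / 2 ^ (8 * h) := by
            rw [mul_one_div, ← mul_div_assoc, div_eq_div_iff (by positivity) (by positivity),
              ← pow_add, ← pow_add, ← pow_succ']
            congr 1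
            ring

end Vale.Agent.P313.H577
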