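import Vale.Agent.P313.H577.LfM

/-!
Medium width: the matrices at the bottom of the recursion are in `LF`.
-/

namespace Vale.Agent.P313.MW.H577

open Finset

variable {k : ℕ}

/-- Functions of the length. -/
theorem lf_up {F : List Bool → ℕ} (h : LF (fun x _ => F x : Fn 0)) (m : ℕ) :
    LF (fun x _ => F x : Fn m) :=
  LF.comp (k := m) (m := 0) (f := fun x _ => F x) (g := fun i => i.elim0) h (fun i => i.elim0)

theorem pb_two_pow {f : ℕ → ℕ} {c : ℕ} (hc : ∀ n, f n ≤ c * Nat.log 2 (n + 2)) (m : ℕ) :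
    PB (fun x _ => 2 ^ f x.length : Fn m) := by
  refine ((PB.mu (k := m)).pow c).of_le (fun x a => ?_)
  have h1 : 2 ^ Nat.log 2 (x.length + 2) ≤ x.length + 2 := Nat.pow_log_le_self 2 (by omega)
  calc 2 ^ f x.length ≤ 2 ^ (c * Nat.log 2 (x.length + 2)) :=
        Nat.pow_le_pow_right (by norm_num) (hc _)
    _ = (2 ^ Nat.log 2 (x.length + 2)) ^ c := by rw [mul_comm, pow_mul]
    _ ≤ (x.length + 2) ^ c := Nat.pow_le_pow_left h1 c
    _ ≤ P313.mu x a ^ c := Nat.pow_le_pow_left (by unfold P313.mu; omega) c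

theorem lf_two_pow {f : ℕ → ℕ} (hf : LF (fun x _ => f x.length : Fn 0)) {c : ℕ}
    (hc : ∀ n, f n ≤ c * Nat.log 2 (n + 2)) (m : ℕ) : LF (fun x _ => 2 ^ f x.length : Fn m) :=
  LF.pow (LF.const 2) (lf_up hf m) (pb_two_pow hc m)

theorem lf_bit {i : Fn k} (hi : LF i) : LF (fun x w => bit x (i x w)) := by
  have h := LF.sym (fun s => match s with | InSym.bit b => b | _ => false) hi.succ
  refine h.congr (fun x w => ?_)
  unfold bit inSym
  rw [if_neg (by omega), Nat.add_sub_cancel, List.getD_eq_getElem?_getD]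
  cases h1 : x[i x w]? with
  | none => simp
  | some b => cases b <;> simp

/-- Numbers in the input, with a bound for the number of bits. -/
theorem lf_num {i l B : Fn k} (hi : LF i) (hl : LF l) (hB : LF B)
    (hb : ∀ x w, 2 ^ l x w ≤ B x w) : LF (fun x w => num x (i x w) (l x w)) := by
  have h1 : LF (fun x b => bit x (i x (Fin.tail b) + b 0) *
      Min.min (2 ^ b 0) (B x (Fin.tail b) + 1) : Fn (k + 1)) :=
    (lf_bit (hi.weak.add (LF.proj 0))).mul (LF.powMin (LF.const 2) (LF.proj 0) hB.weak)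
  refine (LF.sum h1 hl).congr (fun x w => ?_)
  unfold num
  refine sum_congr rfl fun j hj => ?_
  simp only [Fin.tail_cons, Fin.cons_zero]
  rw [min_eq_left]
  have h2 : 2 ^ j ≤ 2 ^ l x w := Nat.pow_le_pow_right (by norm_num) (mem_range.1 hj).le
  have h3 := hb x w
  omega

section mat

variable {lam W K g : ℕ → ℕ} {c : ℕ}

theorem lf_entry (hW : LF (fun x _ => W x.length : Fn 0)) (hK : LF (fun x _ => K x.length : Fn 0))
    (hg : LF (fun x _ => g x.length : Fn 0)) (cW : ∀ n, W n ≤ c * Nat.log 2 (n + 2))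
    (cK : ∀ n, K n ≤ c * Nat.log 2 (n + 2)) {t u v : Fn k} (ht : LF t) (hu : LF u) (hv : LF v) :
    LF (fun x w => entry x (W x.length) (K x.length) (g x.length) (t x w) (u x w) (v x w)) := by
  have hW' := lf_up hW k
  have hK' := lf_up hK k
  have hg' := lf_up hg k
  have h2W := lf_two_pow hW cW k
  have h2K := lf_two_pow hK cK k
  unfold entry
  exact lf_num (B := fun x _ => 2 ^ K x.length * 2)
    (((((LF.const 2).mul hW').add (hg'.add (LF.const 1))).add
      ((((ht.mul h2W).add hu).mul h2W).add hv |>.mul (hK'.add (LF.const 1)))))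
    (hK'.add (LF.const 1)) (h2K.mul (LF.const 2)) (fun x w => by rw [pow_succ])

theorem lf_numT (hl : LF (fun x _ => lam x.length : Fn 0))
    (hW : LF (fun x _ => W x.length : Fn 0)) (hK : LF (fun x _ => K x.length : Fn 0))
    (hg : LF (fun x _ => g x.length : Fn 0)) (cl : ∀ n, lam n ≤ c * Nat.log 2 (n + 2))
    (cW : ∀ n, W n ≤ c * Nat.log 2 (n + 2))
    (cK : ∀ n, K n ≤ c * Nat.log 2 (n + 2)) {t u v : Fn k} (ht : LF t) (hu : LF u) (hv : LF v) :
    LF (fun x w => numT x (lam x.length) (W x.length) (K x.length) (g x.length) (t x w) (u x w)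
      (v x w)) := by
  have h2l := lf_two_pow hl cl k
  have h2W := lf_two_pow hW cW k
  have h2K := lf_two_pow hK cK k
  have hs : LF (fun x w => ∑ v ∈ range (2 ^ W x.length),
      entry x (W x.length) (K x.length) (g x.length) (t x w) (u x w) v) := by
    have h := LF.sum (k := k) (n := fun x _ => 2 ^ W x.length)
      (f := fun x b => entry x (W x.length) (K x.length) (g x.length) (t x (Fin.tail b))
        (u x (Fin.tail b)) (b 0))
      (lf_entry hW hK hg cW cK ht.weak hu.weak (LF.proj 0)) h2W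
    refine h.congr (fun x w => ?_)
    simp only [Fin.tail_cons, Fin.cons_zero]
  unfold numT
  exact LF.ite ((LFP.lt ht h2l).and (LFP.lt hu h2W))
    (LF.ite (LFP.lt hv h2W) (lf_entry hW hK hg cW cK ht hu hv)
      (LF.ite (LFP.eq hv h2W) (h2K.sub hs) LF.zero))
    (LF.ite (LFP.eq hu hv) h2K LF.zero)

/-- The digits of the matrices at the bottom of the recursion, computed with a budget. -/
noncomputable def bsM (lam W K g : ℕ → ℕ) (x : List Bool) (M A a : ℕ) : ℕ :=
  numT x (lam x.length) (W x.length) (K x.length) (g x.length) A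
    (fd (theX (lam x.length) (W x.length) (g x.length)) a 4)
    (fd (theX (lam x.length) (W x.length) (g x.length)) a 5) *
    Min.min ((thePrm (lam x.length) (W x.length) (g x.length)).Q ^
      (thePrm (lam x.length) (W x.length) (g x.length)).J) (M + 1) / 2 ^ K x.length /
    (thePrm (lam x.length) (W x.length) (g x.length)).Q ^
      (fd (theX (lam x.length) (W x.length) (g x.length)) a 6) %
    (thePrm (lam x.length) (W x.length) (g x.length)).Q

theorem lf_bsM (hl : LF (fun x _ => lam x.length : Fn 0))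
    (hW : LF (fun x _ => W x.length : Fn 0)) (hK : LF (fun x _ => K x.length : Fn 0))
    (hg : LF (fun x _ => g x.length : Fn 0)) (cl : ∀ n, lam n ≤ c * Nat.log 2 (n + 2))
    (cW : ∀ n, W n ≤ c * Nat.log 2 (n + 2)) (cK : ∀ n, K n ≤ c * Nat.log 2 (n + 2))
    (hQ : ∀ m, LF (fun x _ => (thePrm (lam x.length) (W x.length) (g x.length)).Q : Fn m))
    (hJ : ∀ m, LF (fun x _ => (thePrm (lam x.length) (W x.length) (g x.length)).J : Fn m))
    (hX : ∀ m, LF (fun x _ => theX (lam x.length) (W x.length) (g x.length) : Fn m))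
    {M A a : Fn k} (hM : LF M) (hA : LF A) (ha : LF a) :
    LF (fun x w => bsM lam W K g x (M x w) (A x w) (a x w)) := by
  have h2K := lf_two_pow hK cK k
  unfold bsM
  exact (LF.divPow (hQ k) (((lf_numT hl hW hK hg cl cW cK hA (lf_fd (hX k) ha 4)
    (lf_fd (hX k) ha 5)).mul (LF.powMin (hQ k) (hJ k) hM)).div h2K) (lf_fd (hX k) ha 6)).mod
    (hQ k)

/-- In the form needed for module L. -/
theorem lf_bsM3 (hl : LF (fun x _ => lam x.length : Fn 0))
    (hW : LF (fun x _ => W x.length : Fn 0)) (hK : LF (fun x _ => K x.length : Fn 0))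
    (hg : LF (fun x _ => g x.length : Fn 0)) (cl : ∀ n, lam n ≤ c * Nat.log 2 (n + 2))
    (cW : ∀ n, W n ≤ c * Nat.log 2 (n + 2)) (cK : ∀ n, K n ≤ c * Nat.log 2 (n + 2))
    (hπ : PrmLF (fun x => thePrm (lam x.length) (W x.length) (g x.length)))
    (hX : ∀ m, LF (fun x _ => theX (lam x.length) (W x.length) (g x.length) : Fn m)) :
    LF (fun x a => bsM lam W K g x (a 0) (a 1) (a 2) : Fn 3) :=
  lf_bsM hl hW hK hg cl cW cK hπ.Q hπ.J hX (LF.proj 0) (LF.proj 1) (LF.proj 2)

/-- The values. -/
theorem bsM_eq {x : List Bool} {M A u v e : ℕ}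
    (hB : (thePrm (lam x.length) (W x.length) (g x.length)).Big
      (theX (lam x.length) (W x.length) (g x.length)))
    (hM : (thePrm (lam x.length) (W x.length) (g x.length)).Q ^
      (thePrm (lam x.length) (W x.length) (g x.length)).J ≤ M)
    (hu : u < (thePrm (lam x.length) (W x.length) (g x.length)).N)
    (hv : v < (thePrm (lam x.length) (W x.length) (g x.length)).N)
    (he : e < theX (lam x.length) (W x.length) (g x.length)) :
    bsM lam W K g x M A (pk (theX (lam x.length) (W x.length) (g x.length))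
      [0, 0, 0, 0, u, v, e, 0]) =
      baseM (thePrm (lam x.length) (W x.length) (g x.length)).Q
        (thePrm (lam x.length) (W x.length) (g x.length)).J x (lam x.length) (W x.length)
        (K x.length) (g x.length) A u v /
        (thePrm (lam x.length) (W x.length) (g x.length)).Q ^ e %
        (thePrm (lam x.length) (W x.length) (g x.length)).Q := by
  set π := thePrm (lam x.length) (W x.length) (g x.length) with hπ
  set X := theX (lam x.length) (W x.length) (g x.length) with hX
  have hX0 : 0 < X := by have := hB.QX; omega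
  have hNX : π.N ≤ X := by
    have h1 := hB.WX
    have h2 : π.N ≤ π.W4 := by
      unfold Prm.W4
      calc π.N ≤ (π.n + 1) * π.N := Nat.le_mul_of_pos_left _ (Nat.succ_pos _)
        _ ≤ 4 * ((π.n + 1) * π.N) := Nat.le_mul_of_pos_left _ (by norm_num)
    omega
  have f4 : fd X (pk X [0, 0, 0, 0, u, v, e, 0]) 4 = u := by
    rw [fd_succ hX0, fd_succ hX0, fd_succ hX0, fd_succ hX0, fd_zero, Nat.mod_eq_of_lt (by omega)]
  have f5 : fd X (pk X [0, 0, 0, 0, u, v, e, 0]) 5 = v := by
    rw [fd_succ hX0, fd_succ hX0, fd_succ hX0, fd_succ hX0, fd_succ hX0, fd_zero,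
      Nat.mod_eq_of_lt (by omega)]
  have f6 : fd X (pk X [0, 0, 0, 0, u, v, e, 0]) 6 = e := by
    rw [fd_succ hX0, fd_succ hX0, fd_succ hX0, fd_succ hX0, fd_succ hX0, fd_succ hX0, fd_zero,
      Nat.mod_eq_of_lt he]
  unfold bsM baseM
  rw [← hX, ← hπ, f4, f5, f6, min_eq_left (by omega)]

end mat

end Vale.Agent.P313.MW.H577
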