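import Vale.Agent.P313.H463.MW.MStmt
import Vale.Agent.P313.H296.LFx

/-!
Medium width, module L: the stack machine of the recursion is in `LF`.
-/

namespace Vale.Agent.P313.MW.H577

open Finset

variable {k : ℕ}

theorem lfp_ne {f g : Fn k} (hf : LF f) (hg : LF g) : LFP (fun x a => f x a ≠ g x a) :=
  LFP.not (LFP.eq hf hg)

theorem lf_bt {C c : Fn k} (hC : LF C) (hc : LF c) : LF (fun x w => bt (C x w) (c x w)) := by
  unfold bt
  exact (LF.divPow (LF.const 2) hC hc).mod (LF.const 2)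

theorem lf_pc {C c : Fn k} (hC : LF C) (hc : LF c) : LF (fun x w => pc (C x w) (c x w)) := by
  have h := LF.sum (k := k) (n := c) (f := fun x b => bt (C x (Fin.tail b)) (b 0))
    (lf_bt hC.weak (LF.proj 0)) hc
  refine h.congr (fun x w => ?_)
  simp only [Fin.tail_cons, Fin.cons_zero, pc]

theorem lf_fd {X a : Fn k} (hX : LF X) (ha : LF a) (j : ℕ) :
    LF (fun x w => fd (X x w) (a x w) j) := by
  unfold fd
  exact (ha.div (hX.powConst j)).mod hX

theorem lf_alz {Q z c : Fn k} (hQ : LF Q) (hz : LF z) (hc : LF c) :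
    LF (fun x w => alz (Q x w) (z x w) (c x w)) := by
  unfold alz
  exact (LF.divPow hQ hz ((LF.const 2).mul hc)).mod hQ

theorem lf_bez {Q z c : Fn k} (hQ : LF Q) (hz : LF z) (hc : LF c) :
    LF (fun x w => bez (Q x w) (z x w) (c x w)) := by
  unfold bez
  exact (LF.divPow hQ hz ((LF.const 2).mul hc).succ).mod hQ

theorem lf_hst {Q z C t c y : Fn k} (hQ : LF Q) (hz : LF z) (hC : LF C) (ht : LF t) (hc : LF c)
    (hy : LF y) :
    LF (fun x w => hst (Q x w) (alz (Q x w) (z x w)) (bez (Q x w) (z x w)) (C x w) (t x w)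
      (c x w) (y x w)) := by
  unfold hst
  exact LF.ite ((LFP.eq (lf_bt hC hc) (LF.const 1)).and
    (LFP.eq (lf_bt ht (lf_pc hC hc)) (LF.const 1)))
    ((((lf_alz hQ hz hc).mul hy).add (lf_bez hQ hz hc)).mod hQ) hy

theorem nfold_eq_rec (f : ℕ → ℕ → ℕ) (s n : ℕ) :
    nfold f s n = (Nat.rec s (fun i r => f i r) n : ℕ) := by
  induction n with
  | zero => rfl
  | succ n ih =>
    show f n (nfold f s n) = f n _
    rw [ih]

theorem hst_le {Q : ℕ} (hQ : 0 < Q) (al be : ℕ → ℕ) (C t c y : ℕ) :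
    hst Q al be C t c y ≤ max y Q := by
  unfold hst
  split_ifs
  · exact (Nat.mod_lt _ hQ).le.trans (le_max_right _ _)
  · exact le_max_left _ _

theorem lf_labS {Q z C t c j y : Fn k} (hQ : LF Q) (hQ0 : ∀ x w, 0 < Q x w) (hz : LF z)
    (hC : LF C) (ht : LF t) (hc : LF c) (hj : LF j) (hy : LF y) :
    LF (fun x w => labS (Q x w) (alz (Q x w) (z x w)) (bez (Q x w) (z x w)) (C x w) (t x w)
      (c x w) (j x w) (y x w)) := by
  have h := LF.natRec' (k := k) (n := j) (g := y)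
    (h := fun x b => hst (Q x (Fin.tail (Fin.tail b)))
      (alz (Q x (Fin.tail (Fin.tail b))) (z x (Fin.tail (Fin.tail b))))
      (bez (Q x (Fin.tail (Fin.tail b))) (z x (Fin.tail (Fin.tail b))))
      (C x (Fin.tail (Fin.tail b))) (t x (Fin.tail (Fin.tail b)))
      (c x (Fin.tail (Fin.tail b)) - 1 - b 0) (b 1)) hj hy
    (lf_hst hQ.weak.weak hz.weak.weak hC.weak.weak ht.weak.weak
      ((hc.weak.weak.sub (LF.const 1)).sub (LF.proj 0)) (LF.proj 1))
    (fun x w => y x w + Q x w) (hy.pb.add hQ.pb) (fun x w i hi => by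
      clear hi
      simp only [Fin.tail_cons, Fin.cons_zero, Fin.cons_one]
      induction i with
      | zero => exact Nat.le_add_right _ _
      | succ i ih =>
        refine (hst_le (hQ0 x w) _ _ _ _ _ _).trans ?_
        exact max_le ih (Nat.le_add_left _ _))
  refine h.congr (fun x w => ?_)
  simp only [Fin.tail_cons, Fin.cons_zero, Fin.cons_one]
  unfold labS
  rw [nfold_eq_rec]

theorem lf_dgP {Q J c e : Fn k} (hQ : LF Q) (hJ : LF J) (hc : LF c) (he : LF e) :
    LF (fun x w => dgP (Q x w) (J x w) (c x w) (e x w)) := by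
  unfold dgP
  exact LF.ite (LFP.eq he hJ) (hc.mod hQ)
    (LF.ite (LFP.eq he (hJ.add (LF.const 1))) (hc.div hQ) LF.zero)

theorem lf_bst {Y Q e q z : Fn k} (hY : LF Y) (hQ : LF Q) (he : LF e) (hq : LF q) (hz : LF z) :
    LF (fun x w => bst (Y x w) (Q x w) (e x w) (q x w) (z x w)) := by
  unfold bst
  exact LF.ite (LFP.eq (hq.mod hY) (hY.sub (LF.const 1)))
    (LF.ite (LFP.lt (hq.div hY) he) (hz.div hQ)
      (LF.ite (LFP.eq (hq.div hY) he) (hz.mod hQ) hz)) hz

theorem lf_pk {X a0 a1 a2 a3 a4 a5 a6 a7 : Fn k} (hX : LF X) (h0 : LF a0) (h1 : LF a1)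
    (h2 : LF a2) (h3 : LF a3) (h4 : LF a4) (h5 : LF a5) (h6 : LF a6) (h7 : LF a7) :
    LF (fun x w => pk (X x w) [a0 x w, a1 x w, a2 x w, a3 x w, a4 x w, a5 x w, a6 x w,
      a7 x w]) := by
  simp only [pk]
  exact (h0.mod hX).add (hX.mul ((h1.mod hX).add (hX.mul ((h2.mod hX).add (hX.mul
    ((h3.mod hX).add (hX.mul ((h4.mod hX).add (hX.mul ((h5.mod hX).add (hX.mul
    ((h6.mod hX).add (hX.mul ((h7.mod hX).add (hX.mul LF.zero)))))))))))))))

theorem lf_cod {n a b c d : Fn k} (hn : LF n) (ha : LF a) (hb : LF b) (hc : LF c) (hd : LF d) :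
    LF (fun x w => cod (n x w) (a x w) (b x w) (c x w) (d x w)) := by
  unfold cod
  exact ha.add ((LF.const 2).mul (hb.add ((LF.const 2).mul (hc.add
    ((hn.add (LF.const 1)).mul hd)))))

theorem lf_cf {P m i v S : Fn k} (hP : LF P) (hm : LF m) (hi : LF i) (hv : LF v) (hS : LF S) :
    LF (fun x a => RecD.cf (P x a) (m x a) (i x a) (v x a) (S x a)) := by
  unfold RecD.cf
  exact hm.add (hP.mul (hi.add (hP.mul (hv.add (hP.mul hS)))))

theorem lf_fr {P m i v S : Fn k} (hP : LF P) (hm : LF m) (hi : LF i) (hv : LF v) (hS : LF S) :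
    LF (fun x a => RecD.fr (P x a) (m x a) (i x a) (v x a) (S x a)) := by
  unfold RecD.fr
  exact hm.add (hP.mul (hi.add (hP.mul (hv.add (hP.mul hS)))))

section level

variable {π : List Bool → Prm} {X : List Bool → ℕ}

theorem lf_qryL (hπ : PrmLF π) (hX : ∀ m, LF (fun x _ => X x : Fn m)) (hQ0 : ∀ x, 0 < (π x).Q)
    {z l kd C i j u v e w' q s : Fn k} (hz : LF z) (hl : LF l) (hkd : LF kd) (hC : LF C)
    (hi : LF i) (hj : LF j) (hu : LF u) (hv : LF v) (he : LF e) (hw : LF w') (hq : LF q)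
    (hs : LF s) :
    LF (fun x w => (π x).qryL (X x) (alz (π x).Q (z x w)) (bez (π x).Q (z x w)) (l x w)
      (kd x w) (C x w) (i x w) (j x w) (u x w) (v x w) (e x w) (w' x w) (q x w) (s x w)) := by
  have hX := hX k
  have hN := hπ.N k
  have hs' := hπ.s k
  have hQ := hπ.Q k
  have hJ := hπ.J k
  have hD := hπ.D k
  have hn := hπ.n k
  have hlab : LF (fun x w => labS (π x).Q (alz (π x).Q (z x w)) (bez (π x).Q (z x w)) (C x w)
      (q x w % X x) (2 * (π x).s) (2 * (π x).s) (q x w / X x)) :=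
    lf_labS hQ (fun x _ => hQ0 x) hz hC (hq.mod hX) ((LF.const 2).mul hs')
      ((LF.const 2).mul hs') (hq.div hX)
  unfold Prm.qryL
  repeat (first
    | with_reducible assumption
    | with_reducible exact LF.const _
    | with_reducible exact LF.proj _
    | with_reducible refine LF.ite ?_ ?_ ?_
    | with_reducible refine lf_pk ?_ ?_ ?_ ?_ ?_ ?_ ?_ ?_ ?_
    | with_reducible refine lf_bst ?_ ?_ ?_ ?_ ?_
    | with_reducible refine lf_dgP ?_ ?_ ?_ ?_
    | with_reducible refine lf_cod ?_ ?_ ?_ ?_ ?_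
    | with_reducible refine LF.powConst ?_ _
    | with_reducible refine LF.add ?_ ?_
    | with_reducible refine LF.mul ?_ ?_
    | with_reducible refine LF.sub ?_ ?_
    | with_reducible refine LF.div ?_ ?_
    | with_reducible refine LF.mod ?_ ?_
    | with_reducible refine LFP.and ?_ ?_
    | with_reducible refine LFP.eq ?_ ?_
    | with_reducible refine LFP.le ?_ ?_
    | with_reducible refine LFP.lt ?_ ?_
    | with_reducible refine lfp_ne ?_ ?_)

theorem lf_updL (hπ : PrmLF π) (hX : ∀ m, LF (fun x _ => X x : Fn m))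
    {l kd i j u v e w' q s r : Fn k} (hl : LF l) (hkd : LF kd)
    (hi : LF i) (hj : LF j) (hu : LF u) (hv : LF v) (he : LF e) (hw : LF w') (hq : LF q)
    (hs : LF s) (hr : LF r) :
    LF (fun x w => (π x).updL (X x) (l x w)
      (kd x w) (i x w) (j x w) (u x w) (v x w) (e x w) (w' x w) (q x w) (s x w) (r x w)) := by
  have hX := hX k
  have hN := hπ.N k
  have hs' := hπ.s k
  have hQ := hπ.Q k
  have hJ := hπ.J k
  have hD := hπ.D k
  have hn := hπ.n k
  have hC := hπ.C k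
  have ht := hπ.tau k
  have hD2 := hπ.D2 k
  unfold Prm.updL Prm.E Prm.F Prm.W4
  repeat (first
    | with_reducible assumption
    | with_reducible exact LF.const _
    | with_reducible exact LF.proj _
    | with_reducible refine LF.ite ?_ ?_ ?_
    | with_reducible refine lf_pk ?_ ?_ ?_ ?_ ?_ ?_ ?_ ?_ ?_
    | with_reducible refine lf_bst ?_ ?_ ?_ ?_ ?_
    | with_reducible refine lf_dgP ?_ ?_ ?_ ?_
    | with_reducible refine lf_cod ?_ ?_ ?_ ?_ ?_
    | with_reducible refine LF.powConst ?_ _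
    | with_reducible refine LF.add ?_ ?_
    | with_reducible refine LF.mul ?_ ?_
    | with_reducible refine LF.sub ?_ ?_
    | with_reducible refine LF.div ?_ ?_
    | with_reducible refine LF.mod ?_ ?_
    | with_reducible refine LFP.and ?_ ?_
    | with_reducible refine LFP.eq ?_ ?_
    | with_reducible refine LFP.le ?_ ?_
    | with_reducible refine LFP.lt ?_ ?_
    | with_reducible refine lfp_ne ?_ ?_)

theorem lf_outL (hπ : PrmLF π) (hX : ∀ m, LF (fun x _ => X x : Fn m))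
    {l kd u v e s : Fn k} (hl : LF l) (hkd : LF kd) (hu : LF u) (hv : LF v) (he : LF e)
    (hs : LF s) :
    LF (fun x w => (π x).outL (X x) (l x w) (kd x w) (u x w) (v x w) (e x w) (s x w)) := by
  have hX := hX k
  have hN := hπ.N k
  have hs' := hπ.s k
  have hQ := hπ.Q k
  have hJ := hπ.J k
  have hD := hπ.D k
  have hn := hπ.n k
  have hC := hπ.C k
  have ht := hπ.tau k
  have hD2 := hπ.D2 k
  unfold Prm.outL
  repeat (first
    | with_reducible assumption
    | with_reducible exact LF.const _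
    | with_reducible exact LF.proj _
    | with_reducible refine LF.ite ?_ ?_ ?_
    | with_reducible refine lf_pk ?_ ?_ ?_ ?_ ?_ ?_ ?_ ?_ ?_
    | with_reducible refine lf_bst ?_ ?_ ?_ ?_ ?_
    | with_reducible refine lf_dgP ?_ ?_ ?_ ?_
    | with_reducible refine lf_cod ?_ ?_ ?_ ?_ ?_
    | with_reducible refine LF.powConst ?_ _
    | with_reducible refine LF.add ?_ ?_
    | with_reducible refine LF.mul ?_ ?_
    | with_reducible refine LF.sub ?_ ?_
    | with_reducible refine LF.div ?_ ?_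
    | with_reducible refine LF.mod ?_ ?_
    | with_reducible refine LFP.and ?_ ?_
    | with_reducible refine LFP.eq ?_ ?_
    | with_reducible refine LFP.le ?_ ?_
    | with_reducible refine LFP.lt ?_ ?_
    | with_reducible refine lfp_ne ?_ ?_)

variable {bs : List Bool → ℕ → ℕ → ℕ → ℕ}

theorem lf_stp (hπ : PrmLF π) (hX : ∀ m, LF (fun x _ => X x : Fn m)) (hQ0 : ∀ x, 0 < (π x).Q)
    (hb : LF (fun x a => bs x (a 0) (a 1) (a 2) : Fn 3))
    {z M top c : Fn k} (hz : LF z) (hM : LF M) (ht : LF top) (hc : LF c) :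
    LF (fun x w => ((π x).rcn (X x) (alz (π x).Q (z x w)) (bez (π x).Q (z x w))
      (bs x (M x w))).stp ((π x).n ^ (π x).s) (X x ^ 8) (X x ^ 4) (top x w) (c x w)) := by
  have hXk := hX k
  have hn := hπ.n k
  have hMa := hπ.Ma k
  have hP : LF (fun x _ => X x ^ 8 : Fn k) := hXk.powConst 8
  have hQn : LF (fun x _ => X x ^ 4 : Fn k) := hXk.powConst 4
  have hLP : LF (fun x _ => (π x).LP : Fn k) := by
    unfold Prm.LP
    exact (LF.const 12).add ((LF.const 2).mul (hπ.D k))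
  have hA := hc.mod hMa
  have hc' := hc.div hMa
  have h0 := hc'.mod hP
  have h1 := (hc'.div hP).mod hP
  have h2 := ((hc'.div hP).div hP).mod hP
  have h3 := ((hc'.div hP).div hP).div hP
  have h4 := h3.mod hP
  have h5 := (h3.div hP).mod hP
  have h6 := ((h3.div hP).div hP).mod hP
  have h7 := ((h3.div hP).div hP).div hP
  have lq : ∀ {i a q s : Fn k}, LF i → LF a → LF q → LF s →
      LF (fun x w => ((π x).rcn (X x) (alz (π x).Q (z x w)) (bez (π x).Q (z x w))
        (bs x (M x w))).qry (i x w) (a x w) (q x w) (s x w)) :=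
    fun hi ha hq hs => lf_qryL hπ hX hQ0 hz (hi.mod hLP) (lf_fd hXk ha 0) (lf_fd hXk ha 1)
      (lf_fd hXk ha 2) (lf_fd hXk ha 3) (lf_fd hXk ha 4) (lf_fd hXk ha 5) (lf_fd hXk ha 6)
      (lf_fd hXk ha 7) hq hs
  have lu : ∀ {i a q s r : Fn k}, LF i → LF a → LF q → LF s → LF r →
      LF (fun x w => ((π x).rcn (X x) (alz (π x).Q (z x w)) (bez (π x).Q (z x w))
        (bs x (M x w))).upd (i x w) (a x w) (q x w) (s x w) (r x w)) :=
    fun hi ha hq hs hr => (lf_updL hπ hX (hi.mod hLP) (lf_fd hXk ha 0)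
      (lf_fd hXk ha 2) (lf_fd hXk ha 3) (lf_fd hXk ha 4) (lf_fd hXk ha 5) (lf_fd hXk ha 6)
      (lf_fd hXk ha 7) hq hs hr).mod hP
  have lo : ∀ {i a s : Fn k}, LF i → LF a → LF s →
      LF (fun x w => ((π x).rcn (X x) (alz (π x).Q (z x w)) (bez (π x).Q (z x w))
        (bs x (M x w))).out (i x w) (a x w) (s x w)) :=
    fun hi ha hs => (lf_outL hπ hX (hi.mod hLP) (lf_fd hXk ha 0)
      (lf_fd hXk ha 4) (lf_fd hXk ha 5) (lf_fd hXk ha 6) hs).mod hP
  have lb : ∀ {A a : Fn k}, LF A → LF a →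
      LF (fun x w => ((π x).rcn (X x) (alz (π x).Q (z x w)) (bez (π x).Q (z x w))
        (bs x (M x w))).base (A x w) (a x w)) := by
    intro A a hA ha
    have h := LF.comp (k := k) (m := 3) (f := fun x a => bs x (a 0) (a 1) (a 2))
      (g := ![M, A, a]) hb (fun i => by
        fin_cases i
        · exact hM
        · exact hA
        · exact ha)
    exact LF.mod (LF.congr h (fun x w => rfl)) hP
  have lm : ∀ {i : Fn k}, LF i →
      LF (fun x w => ((π x).rcn (X x) (alz (π x).Q (z x w)) (bez (π x).Q (z x w))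
        (bs x (M x w))).ml (i x w)) :=
    fun hi => LF.ite (LFP.eq (hi.mod hLP) LF.zero) hn (LF.const 1)
  have la : ∀ {i a : Fn k}, LF i → LF a →
      LF (fun x w => ((π x).rcn (X x) (alz (π x).Q (z x w)) (bez (π x).Q (z x w))
        (bs x (M x w))).ad (i x w) (a x w)) :=
    fun hi ha => LF.ite (LFP.eq (hi.mod hLP) LF.zero) ((lf_fd hXk ha 2).mod hn) LF.zero
  unfold RecA.stp RecA.stpD
  exact LF.ite (LFP.eq h0 LF.zero)
    (LF.ite (LFP.eq h1 LF.zero)
      (hA.add (hMa.mul (lf_cf hP (LF.const 1) LF.zero (lb hA h2) h3)))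
      (((hA.mul (lm (h1.sub (LF.const 1)))).add (la (h1.sub (LF.const 1)) h2)).add
        (hMa.mul (lf_cf hP LF.zero (h1.sub (LF.const 1))
          (lq (h1.sub (LF.const 1)) h2 LF.zero LF.zero) (lf_fr hP h2 LF.zero LF.zero h3)))))
    (LF.ite (LFP.eq h1 ht) hc
      (LF.ite (LFP.lt h5.succ hQn)
        (hA.add (hMa.mul (lf_cf hP LF.zero h1 (lq h1 h4 h5.succ (lu h1 h4 h5 h6 h2))
          (lf_fr hP h4 h5.succ (lu h1 h4 h5 h6 h2) h7))))
        ((hA.div (lm h1)).add (hMa.mul (lf_cf hP (LF.const 1) h1.succ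
          (lo h1 h4 (lu h1 h4 h5 h6 h2)) h7)))))

end level

theorem stM_iter_le (R : RecA) (Ma P Qn top M c i : ℕ) :
    (R.stM Ma P Qn top M)^[i] c ≤ c + M := by
  cases i with
  | zero => exact Nat.le_add_right _ _
  | succ i =>
    rw [Function.iterate_succ_apply']
    have h1 : R.stM Ma P Qn top M ((R.stM Ma P Qn top M)^[i] c) < M + 1 :=
      Nat.mod_lt _ (Nat.succ_pos M)
    omega

/-- MODULE L. -/
theorem modL : ModL := by
  intro π X bs hπ hX hQ0 hb
  have hc0 : LF (fun x a => a 3 + (π x).n ^ (π x).s * RecD.cf (X x ^ 8) 0 (a 2) (a 4) 0 :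
      Fn 5) :=
    (LF.proj 3).add ((hπ.Ma 5).mul (lf_cf ((hX 5).powConst 8) LF.zero (LF.proj 2) (LF.proj 4)
      LF.zero))
  have p0 : LF (fun _ b => Fin.tail b 0 : Fn 6) := LF.proj 1
  have p1 : LF (fun _ b => Fin.tail b 1 : Fn 6) := LF.proj 2
  have p2 : LF (fun _ b => Fin.tail b 2 : Fn 6) := LF.proj 3
  have hst := lf_stp (k := 6) (z := fun _ b => Fin.tail b 0) (M := fun _ b => Fin.tail b 1)
    (top := fun _ b => Fin.tail b 2) (c := fun _ b => b 0) hπ hX hQ0 hb p0 p1 p2 (LF.proj 0)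
  have h1 := LF.iterate (k := 5)
    (f := fun x b => ((π x).rcn (X x) (alz (π x).Q (Fin.tail b 0)) (bez (π x).Q (Fin.tail b 0))
      (bs x (Fin.tail b 1))).stM ((π x).n ^ (π x).s) (X x ^ 8) (X x ^ 4) (Fin.tail b 2)
      (Fin.tail b 1) (b 0))
    (g := fun x a => a 3 + (π x).n ^ (π x).s * RecD.cf (X x ^ 8) 0 (a 2) (a 4) 0)
    (n := fun _ a => a 1)
    (hst.mod p1.succ) hc0 (LF.proj 1)
    (fun x a => (a 3 + (π x).n ^ (π x).s * RecD.cf (X x ^ 8) 0 (a 2) (a 4) 0) + a 1)
    (hc0.pb.add (PB.proj 1)) (fun x a i _ => by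
      simp only [Fin.tail_cons, Fin.cons_zero]
      exact stM_iter_le _ _ _ _ _ _ _ i)
  refine ((((h1.div (hπ.Ma 5)).div ((hX 5).powConst 8)).div ((hX 5).powConst 8)).mod
    ((hX 5).powConst 8)).congr (fun x a => ?_)
  simp only [Fin.tail_cons, Fin.cons_zero]
  rfl

end Vale.Agent.P313.MW.H577
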