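import Mathlib

/-!
# Existence of a shared pool (potential argument)

A pool is a list of functions. Every block runs greedily through the pool and keeps a chain:
the next function is appended when it is not bad for the current chain of the block. If for every
block and every chain at most a fraction `1 / M` of the functions is bad, then for every `N` there
is one pool of length `N` such that every block rejects fewer than `r` functions, as soon as
`card B * 2 ^ N < M ^ r`.
-/

namespace Vale.Agent.P313.H577

open Finset

variable {H B : Type*}

/-- one step of the greedy chain: the state is the chain kept so far and the number of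
rejections -/
noncomputable def gstep (bad : List H → H → Prop) (st : List H × ℕ) (h : H) : List H × ℕ :=
  open Classical in if bad st.1 h then (st.1, st.2 + 1) else (st.1 ++ [h], st.2)

/-- the greedy run of one block through a pool -/
noncomputable def grun (bad : List H → H → Prop) (p : List H) : List H × ℕ :=
  p.foldl (gstep bad) ([], 0)

theorem gstep_length (bad : List H → H → Prop) (st : List H × ℕ) (h : H) :
    (gstep bad st h).1.length + (gstep bad st h).2 = st.1.length + st.2 + 1 := by
  classical
  unfold gstep
  split_ifs
  · simp; omega
  · simp; omega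

theorem grun_append (bad : List H → H → Prop) (p : List H) (h : H) :
    grun bad (p ++ [h]) = gstep bad (grun bad p) h := by
  simp [grun, List.foldl_append]

theorem grun_length (bad : List H → H → Prop) (p : List H) :
    (grun bad p).1.length + (grun bad p).2 = p.length := by
  induction p using List.reverseRecOn with
  | nil => simp [grun]
  | append_singleton p h ih =>
    rw [grun_append, gstep_length, ih]; simp

/-- the chain kept is a sublist of the pool -/
theorem grun_sublist (bad : List H → H → Prop) (p : List H) :
    (grun bad p).1.Sublist p := by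
  induction p using List.reverseRecOn with
  | nil => simp [grun]
  | append_singleton p h ih =>
    rw [grun_append]
    unfold gstep
    split_ifs
    · exact ih.trans (List.sublist_append_left p [h])
    · exact ih.append (List.Sublist.refl [h])

/-- `Chain' bad c`: every element of the chain is not bad for the part before it -/
def GoodChain (bad : List H → H → Prop) (c : List H) : Prop :=
  ∀ c₁ h c₂, c = c₁ ++ h :: c₂ → ¬ bad c₁ h

theorem goodChain_append {bad : List H → H → Prop} {c : List H} (hc : GoodChain bad c) {h : H}
    (hh : ¬ bad c h) : GoodChain bad (c ++ [h]) := by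
  intro c₁ g c₂ he
  rcases List.eq_nil_or_concat c₂ with rfl | ⟨d, x, rfl⟩
  · have := List.append_inj' he (by simp)
    rcases this with ⟨h1, h2⟩
    simp at h2
    subst h1; subst h2
    exact hh
  · rw [List.concat_eq_append] at he
    have he' : c ++ [h] = (c₁ ++ g :: d) ++ [x] := by simp [he]
    have := List.append_inj' he' (by simp)
    exact hc c₁ g d this.1

theorem grun_good (bad : List H → H → Prop) (p : List H) :
    GoodChain bad (grun bad p).1 := by
  induction p using List.reverseRecOn with
  | nil => intro c₁ h c₂ he; simp [grun] at he
  | append_singleton p h ih =>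
    rw [grun_append]
    unfold gstep
    split_ifs with hb
    · exact ih
    · exact goodChain_append ih hb

/-- prefixes of good chains are good -/
theorem GoodChain.take {bad : List H → H → Prop} {c : List H} (hc : GoodChain bad c) (n : ℕ) :
    GoodChain bad (c.take n) := by
  intro c₁ h c₂ he
  refine hc c₁ h (c₂ ++ c.drop n) ?_
  conv_lhs => rw [← List.take_append_drop n c, he]
  simp

variable [Fintype H] [Fintype B]

theorem potential_step [Nonempty H] (M : ℕ) (_hM : 1 ≤ M) (bad : B → List H → H → Prop)
    (hbad : ∀ b c, (open Classical in (univ.filter (fun h => bad b c h)).card) * M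
      ≤ Fintype.card H)
    (st : B → List H × ℕ) :
    ∃ h : H, ∑ b, M ^ (gstep (bad b) (st b) h).2 ≤ 2 * ∑ b, M ^ (st b).2 := by
  classical
  have hsum : ∑ h : H, ∑ b, M ^ (gstep (bad b) (st b) h).2
      ≤ ∑ _h : H, 2 * ∑ b, M ^ (st b).2 := by
    rw [Finset.sum_comm, Finset.sum_const, card_univ, smul_eq_mul, Finset.mul_sum,
      Finset.mul_sum]
    refine Finset.sum_le_sum fun b _ => ?_
    have h1 : ∀ h : H, M ^ (gstep (bad b) (st b) h).2
        ≤ M ^ (st b).2 + (if bad b (st b).1 h then M ^ (st b).2 * M else 0) := by
      intro h
      unfold gstep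
      split_ifs with hb
      · simp only [pow_succ]
        exact Nat.le_add_left _ _
      · simp
    calc ∑ h : H, M ^ (gstep (bad b) (st b) h).2
        ≤ ∑ h : H, (M ^ (st b).2 + (if bad b (st b).1 h then M ^ (st b).2 * M else 0)) :=
          Finset.sum_le_sum fun h _ => h1 h
      _ = Fintype.card H * M ^ (st b).2
          + (univ.filter (fun h => bad b (st b).1 h)).card * (M ^ (st b).2 * M) := by
          rw [Finset.sum_add_distrib, Finset.sum_const, card_univ, smul_eq_mul,
            ← Finset.sum_filter, Finset.sum_const, smul_eq_mul]
      _ ≤ Fintype.card H * M ^ (st b).2 + Fintype.card H * M ^ (st b).2 := by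
          refine Nat.add_le_add_left ?_ _
          calc (univ.filter (fun h => bad b (st b).1 h)).card * (M ^ (st b).2 * M)
              = ((univ.filter (fun h => bad b (st b).1 h)).card * M) * M ^ (st b).2 := by ring
            _ ≤ Fintype.card H * M ^ (st b).2 :=
                Nat.mul_le_mul_right _ (hbad b (st b).1)
      _ = Fintype.card H * (2 * M ^ (st b).2) := by ring
  obtain ⟨h, _, hh⟩ := Finset.exists_le_of_sum_le (s := (univ : Finset H))
    (Finset.univ_nonempty) hsum
  exact ⟨h, hh⟩

theorem exists_pool_potential [Nonempty H] (M : ℕ) (hM : 1 ≤ M) (bad : B → List H → H → Prop)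
    (hbad : ∀ b c, (open Classical in (univ.filter (fun h => bad b c h)).card) * M
      ≤ Fintype.card H) (N : ℕ) :
    ∃ p : List H, p.length = N ∧
      ∑ b, M ^ (grun (bad b) p).2 ≤ 2 ^ N * Fintype.card B := by
  induction N with
  | zero => exact ⟨[], rfl, by simp [grun]⟩
  | succ N ih =>
    obtain ⟨p, hp, hs⟩ := ih
    obtain ⟨h, hh⟩ := potential_step M hM bad hbad (fun b => grun (bad b) p)
    refine ⟨p ++ [h], by simp [hp], ?_⟩
    simp only [grun_append]
    refine hh.trans ?_
    rw [pow_succ]
    calc 2 * ∑ b, M ^ (grun (bad b) p).2 ≤ 2 * (2 ^ N * Fintype.card B) :=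
          Nat.mul_le_mul_left _ hs
      _ = 2 ^ N * 2 * Fintype.card B := by ring

/-- **Existence of the pool.** -/
theorem exists_pool [Nonempty H] (M : ℕ) (hM : 1 ≤ M) (bad : B → List H → H → Prop)
    (hbad : ∀ b c, (open Classical in (univ.filter (fun h => bad b c h)).card) * M
      ≤ Fintype.card H) (N r : ℕ) (hcard : 2 ^ N * Fintype.card B < M ^ r) :
    ∃ p : List H, p.length = N ∧ ∀ b, ∃ c : List H, c.Sublist p ∧ GoodChain (bad b) c ∧
      N + 1 ≤ c.length + r := by
  obtain ⟨p, hp, hs⟩ := exists_pool_potential M hM bad hbad N
  refine ⟨p, hp, fun b => ⟨(grun (bad b) p).1, grun_sublist _ _, grun_good _ _, ?_⟩⟩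
  have h1 : M ^ (grun (bad b) p).2 ≤ 2 ^ N * Fintype.card B :=
    (Finset.single_le_sum (f := fun b => M ^ (grun (bad b) p).2) (fun _ _ => Nat.zero_le _)
      (Finset.mem_univ b)).trans hs
  have h2 : (grun (bad b) p).2 < r := by
    by_contra hcon
    push Not at hcon
    have := Nat.pow_le_pow_right hM hcon
    omega
  have h3 := grun_length (bad b) p
  omega

end Vale.Agent.P313.H577
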