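import Vale.Agent.P313.H463.MW.SStmt
import Vale.Agent.P313.H577.Hash
import Vale.Agent.P313.H577.Pool

/-!
Labels from chains of hash functions; subsets of a pool as masks.
-/

namespace Vale.Agent.P313.H577

open Finset MW

variable {Q : ℕ}

/-- The label for time `t` obtained from the seed `x` by a chain, the last member first. -/
def labL : List (ZMod Q × ZMod Q) → ℕ → ℕ → ℕ
  | [], _, x => x
  | h :: ch, t, x => if t % 2 = 1 then hv h (labL ch (t / 2) x) else labL ch (t / 2) x

theorem labL_append (h : ZMod Q × ZMod Q) :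
    ∀ (ch : List (ZMod Q × ZMod Q)) (t x : ℕ), labL (ch ++ [h]) t x =
      labL ch t (if t / 2 ^ ch.length % 2 = 1 then hv h x else x)
  | [], t, x => by simp [labL]
  | g :: ch, t, x => by
    have ih := labL_append h ch (t / 2) x
    simp only [List.cons_append, labL, ih, List.length_cons, Nat.div_div_eq_div_mul, pow_succ']

theorem labL_add (m : ℕ) :
    ∀ (ch : List (ZMod Q × ZMod Q)) (t x : ℕ), labL ch (t + 2 ^ ch.length * m) x = labL ch t x
  | [], t, x => rfl
  | g :: ch, t, x => by
    have ih := labL_add m ch (t / 2) x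
    have h1 : (t + 2 ^ (ch.length + 1) * m) % 2 = t % 2 := by
      rw [pow_succ', mul_assoc, Nat.add_mul_mod_self_left]
    have h2 : (t + 2 ^ (ch.length + 1) * m) / 2 = t / 2 + 2 ^ ch.length * m := by
      rw [pow_succ', mul_assoc, Nat.add_mul_div_left _ _ (by norm_num)]
    simp only [labL, List.length_cons, h1, h2, ih]

/-! ### Masks -/

theorem bt_lt_two (C c : ℕ) : bt C c < 2 := Nat.mod_lt _ (by norm_num)

theorem bt_of_lt {C r : ℕ} (h : C < 2 ^ r) : bt C r = 0 := by
  unfold bt
  rw [Nat.div_eq_of_lt h]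

theorem bt_add_pow {C r c : ℕ} (hc : c < r) : bt (C + 2 ^ r) c = bt C c := by
  unfold bt
  have h1 : 2 ^ r = 2 ^ c * (2 * 2 ^ (r - c - 1)) := by
    rw [← pow_succ', ← pow_add]
    congr 1
    omega
  rw [h1, Nat.add_mul_div_left _ _ (by positivity), Nat.add_mul_mod_self_left]

theorem bt_add_pow_self {C r : ℕ} (hC : C < 2 ^ r) : bt (C + 2 ^ r) r = 1 := by
  unfold bt
  have h1 : C + 2 ^ r = C + 2 ^ r * 1 := by ring
  rw [h1, Nat.add_mul_div_left _ _ (by positivity), Nat.div_eq_of_lt hC]

theorem pc_succ (C c : ℕ) : pc C (c + 1) = pc C c + bt C c := by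
  unfold pc
  rw [sum_range_succ]

theorem pc_congr {C C' : ℕ} {c : ℕ} (h : ∀ i < c, bt C i = bt C' i) : pc C c = pc C' c := by
  unfold pc
  exact sum_congr rfl fun i hi => h i (mem_range.1 hi)

theorem lab_congr {al be al' be' : ℕ → ℕ} {C C' t : ℕ} :
    ∀ (c : ℕ) (x : ℕ), (∀ i < c, al i = al' i ∧ be i = be' i ∧ bt C i = bt C' i) →
      lab Q al be C t c x = lab Q al' be' C' t c x
  | 0, x, _ => rfl
  | c + 1, x, h => by
    have h1 : pc C c = pc C' c := pc_congr fun i hi => (h i (by omega)).2.2
    obtain ⟨h2, h3, h4⟩ := h c (by omega)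
    have h5 : hst Q al be C t c x = hst Q al' be' C' t c x := by
      unfold hst
      rw [h1, h2, h3, h4]
    simp only [lab, h5]
    exact lab_congr c _ fun i hi => h i (by omega)

/-- Multiplier of a member of the pool. -/
def alp (p : List (ZMod Q × ZMod Q)) (c : ℕ) : ℕ := (p.getD c (0, 0)).1.val

/-- Constant of a member of the pool. -/
def bep (p : List (ZMod Q × ZMod Q)) (c : ℕ) : ℕ := (p.getD c (0, 0)).2.val

theorem alp_append_left {p : List (ZMod Q × ZMod Q)} {h : ZMod Q × ZMod Q} {c : ℕ}
    (hc : c < p.length) : alp (p ++ [h]) c = alp p c := by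
  unfold alp
  rw [List.getD_append _ _ _ _ hc]

theorem bep_append_left {p : List (ZMod Q × ZMod Q)} {h : ZMod Q × ZMod Q} {c : ℕ}
    (hc : c < p.length) : bep (p ++ [h]) c = bep p c := by
  unfold bep
  rw [List.getD_append _ _ _ _ hc]

theorem alp_append_self (p : List (ZMod Q × ZMod Q)) (h : ZMod Q × ZMod Q) :
    alp (p ++ [h]) p.length = h.1.val := by
  unfold alp
  rw [List.getD_append_right _ _ _ _ le_rfl]
  simp

theorem bep_append_self (p : List (ZMod Q × ZMod Q)) (h : ZMod Q × ZMod Q) :
    bep (p ++ [h]) p.length = h.2.val := by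
  unfold bep
  rw [List.getD_append_right _ _ _ _ le_rfl]
  simp

/-- Subsets of a pool as masks. -/
theorem exists_mask (p : List (ZMod Q × ZMod Q)) :
    ∀ ch : List (ZMod Q × ZMod Q), ch.Sublist p → ∃ C < 2 ^ p.length, pc C p.length = ch.length ∧
      ∀ t x, lab Q (alp p) (bep p) C t p.length x = labL ch t x := by
  induction p using List.reverseRecOn with
  | nil =>
    intro ch hch
    have : ch = [] := List.sublist_nil.1 hch
    subst this
    exact ⟨0, by simp, by simp [pc], fun t x => rfl⟩
  | append_singleton p h ih =>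
    intro ch hch
    obtain ⟨l₁, l₂, rfl, h1, h2⟩ := List.sublist_append_iff.1 hch
    obtain ⟨C, hC, hpc, hlab⟩ := ih l₁ h1
    have hlen : (p ++ [h]).length = p.length + 1 := by simp
    have hcong : ∀ i < p.length, alp (p ++ [h]) i = alp p i ∧ bep (p ++ [h]) i = bep p i :=
      fun i hi => ⟨alp_append_left hi, bep_append_left hi⟩
    rcases List.sublist_cons_iff.1 h2 with h3 | ⟨l, rfl, h3⟩
    · have : l₂ = [] := List.sublist_nil.1 h3
      subst this
      refine ⟨C, ?_, ?_, ?_⟩
      · rw [hlen, pow_succ]; omega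
      · rw [hlen, pc_succ, hpc, bt_of_lt hC]; simp
      · intro t x
        rw [hlen]
        simp only [lab, List.append_nil]
        have h5 : hst Q (alp (p ++ [h])) (bep (p ++ [h])) C t p.length x = x := by
          unfold hst
          rw [bt_of_lt hC, if_neg (by omega)]
        rw [h5, ← hlab]
        exact lab_congr _ _ fun i hi => ⟨(hcong i hi).1, (hcong i hi).2, rfl⟩
    · have : l = [] := List.sublist_nil.1 h3
      subst this
      refine ⟨C + 2 ^ p.length, ?_, ?_, ?_⟩
      · rw [hlen, pow_succ]; omega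
      · rw [hlen, pc_succ, bt_add_pow_self hC, pc_congr (C' := C) fun i hi => bt_add_pow hi, hpc]
        simp
      · intro t x
        rw [hlen]
        simp only [lab]
        rw [labL_append, ← hlab]
        have h6 : pc (C + 2 ^ p.length) p.length = l₁.length := by
          rw [pc_congr (C' := C) fun i hi => bt_add_pow hi, hpc]
        have h5 : hst Q (alp (p ++ [h])) (bep (p ++ [h])) (C + 2 ^ p.length) t p.length x =
            if t / 2 ^ l₁.length % 2 = 1 then hv h x else x := by
          unfold hst
          rw [bt_add_pow_self hC, h6, alp_append_self, bep_append_self]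
          simp only [true_and]
          rfl
        rw [h5]
        exact lab_congr _ _ fun i hi => ⟨(hcong i hi).1, (hcong i hi).2, bt_add_pow hi⟩

end Vale.Agent.P313.H577
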