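import Vale.Agent.P313.H577.Nisan

/-!
Module C: a pool of hash functions.
-/

namespace Vale.Agent.P313.H577

open Finset MW

variable {Q : ℕ} [hQ : Fact Q.Prime]

omit hQ in
theorem sum_card_fib (N : ℕ) (g : ℕ → ℕ) (hg : ∀ x, g x ≤ N) :
    ∑ v ∈ range (N + 1), (#{x ∈ range Q | g x = v} : ℚ) = Q := by
  rw [← Nat.cast_sum, ← card_eq_sum_card_fiberwise (f := g)
    (fun x _ => by simpa using Nat.lt_succ_of_le (hg x)), card_range]

/-- The mean square deviation. -/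
theorem sum_dev_le {T : ℕ → ℕ → ℕ → ℕ} {N : ℕ} (hT : ∀ p u x, T p u x ≤ N)
    (ch : List (ZMod Q × ZMod Q)) (i t : ℕ) {u : ℕ} (hu : u ≤ N) :
    ∑ h : ZMod Q × ZMod Q, ∑ w ∈ range (N + 1), ∑ v ∈ range (N + 1), dev T ch h i t u w v ^ 2 ≤
      Q := by
  have hQ0 : (0 : ℚ) < Q := by exact_mod_cast hQ.out.pos
  rw [Finset.sum_comm]
  have h1 : ∀ w ∈ range (N + 1), ∑ h : ZMod Q × ZMod Q, ∑ v ∈ range (N + 1),
      dev T ch h i t u w v ^ 2 ≤
      #{x ∈ range Q | wlk T (fun j => labL ch j x) i u (2 ^ ch.length) = w} := by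
    intro w hw
    rw [Finset.sum_comm]
    have h2 : ∀ v ∈ range (N + 1), ∑ h : ZMod Q × ZMod Q, dev T ch h i t u w v ^ 2 ≤
        (#{x ∈ range Q | wlk T (fun j => labL ch j x) i u (2 ^ ch.length) = w} : ℚ) *
          (#{y ∈ range Q | wlk T (fun j => labL ch j y) (i + 2 ^ ch.length) w t = v} : ℚ) / Q :=
      fun v _ => moment_dev
        (fun x => wlk T (fun j => labL ch j x) i u (2 ^ ch.length) = w)
        (fun y => wlk T (fun j => labL ch j y) (i + 2 ^ ch.length) w t = v)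
    refine (sum_le_sum h2).trans ?_
    rw [← Finset.sum_div, ← mul_sum, sum_card_fib N
      (fun y => wlk T (fun j => labL ch j y) (i + 2 ^ ch.length) w t)
      (fun y => wlk_le hT _ _ (by have := mem_range.1 hw; omega) _)]
    rw [mul_div_assoc, div_self hQ0.ne', mul_one]
  refine (sum_le_sum h1).trans ?_
  rw [sum_card_fib N (fun x => wlk T (fun j => labL ch j x) i u (2 ^ ch.length))
    (fun x => wlk_le hT _ _ hu _)]

open Classical in
/-- Few members are bad on top of a chain. -/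
theorem card_bad {N s R : ℕ} {ε : ℚ} (hε : 0 < ε) {T : ℕ → ℕ → ℕ → ℕ}
    (hT : ∀ p u x, T p u x ≤ N) (ch : List (ZMod Q × ZMod Q))
    (hR : (R : ℚ) * ((2 : ℚ) ^ s + 1) ^ 2 * ((N : ℚ) + 1) ^ 2 ≤ Q * ε ^ 2) :
    #{h : ZMod Q × ZMod Q | Bad N s ε T ch h} * R ≤ Fintype.card (ZMod Q × ZMod Q) := by
  have hQ0 : (0 : ℚ) < Q := by exact_mod_cast hQ.out.pos
  set F : ℕ → ℕ → ℕ → Finset (ZMod Q × ZMod Q) := fun i t u =>
    {h | ε ^ 2 < ∑ w ∈ range (N + 1), ∑ v ∈ range (N + 1), dev T ch h i t u w v ^ 2} with hF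
  have hone : ∀ i t, ∀ u ∈ range (N + 1), (#(F i t u) : ℚ) * ε ^ 2 ≤ Q := by
    intro i t u hu
    have hu' : u ≤ N := by have := mem_range.1 hu; omega
    refine le_trans ?_ (sum_dev_le hT ch i t hu')
    calc (#(F i t u) : ℚ) * ε ^ 2 = ∑ h ∈ F i t u, ε ^ 2 := by
          rw [sum_const, nsmul_eq_mul]
      _ ≤ ∑ h ∈ F i t u, ∑ w ∈ range (N + 1), ∑ v ∈ range (N + 1), dev T ch h i t u w v ^ 2 :=
          sum_le_sum fun h hh => (by simpa [hF] using hh : _ < _).le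
      _ ≤ ∑ h : ZMod Q × ZMod Q, ∑ w ∈ range (N + 1), ∑ v ∈ range (N + 1),
            dev T ch h i t u w v ^ 2 :=
          sum_le_sum_of_subset_of_nonneg (subset_univ _)
            fun h _ _ => sum_nonneg fun w _ => sum_nonneg fun v _ => sq_nonneg _
  have hsub : ({h : ZMod Q × ZMod Q | Bad N s ε T ch h} : Finset _) ⊆
      (range (2 ^ s + 1)).biUnion fun i => (range (2 ^ s + 1)).biUnion fun t =>
        (range (N + 1)).biUnion fun u => F i t u := by
    intro h hh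
    simp only [mem_filter, mem_univ, true_and] at hh
    obtain ⟨i, hi, t, ht, u, hu, hlt⟩ := hh
    simp only [mem_biUnion]
    exact ⟨i, hi, t, ht, u, hu, by simpa [hF] using hlt⟩
  have hcard : (#{h : ZMod Q × ZMod Q | Bad N s ε T ch h} : ℚ) * ε ^ 2 ≤
      (2 ^ s + 1) * ((2 ^ s + 1) * ((N + 1) * Q)) := by
    have h1 := (card_le_card hsub).trans (card_biUnion_le.trans (sum_le_sum fun i _ =>
      card_biUnion_le.trans (sum_le_sum fun t _ => card_biUnion_le)))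
    have h2 : (#{h : ZMod Q × ZMod Q | Bad N s ε T ch h} : ℚ) ≤
        ∑ i ∈ range (2 ^ s + 1), ∑ t ∈ range (2 ^ s + 1), ∑ u ∈ range (N + 1),
          (#(F i t u) : ℚ) := by exact_mod_cast h1
    calc (#{h : ZMod Q × ZMod Q | Bad N s ε T ch h} : ℚ) * ε ^ 2
        ≤ (∑ i ∈ range (2 ^ s + 1), ∑ t ∈ range (2 ^ s + 1), ∑ u ∈ range (N + 1),
          (#(F i t u) : ℚ)) * ε ^ 2 := by gcongr
      _ = ∑ i ∈ range (2 ^ s + 1), ∑ t ∈ range (2 ^ s + 1), ∑ u ∈ range (N + 1),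
          (#(F i t u) : ℚ) * ε ^ 2 := by simp only [sum_mul]
      _ ≤ ∑ _i ∈ range (2 ^ s + 1), ∑ _t ∈ range (2 ^ s + 1), ∑ _u ∈ range (N + 1), (Q : ℚ) :=
          sum_le_sum fun i _ => sum_le_sum fun t _ => sum_le_sum fun u hu => hone i t u hu
      _ = (2 ^ s + 1) * ((2 ^ s + 1) * ((N + 1) * Q)) := by
          simp only [sum_const, card_range, nsmul_eq_mul]
          push_cast
          ring
  have hfin : (#{h : ZMod Q × ZMod Q | Bad N s ε T ch h} : ℚ) * R ≤ (Q : ℚ) * Q := by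
    set B : ℚ := (#{h : ZMod Q × ZMod Q | Bad N s ε T ch h} : ℚ) with hB
    have hB0 : 0 ≤ B := by rw [hB]; positivity
    have hN : (1 : ℚ) ≤ (N : ℚ) + 1 := by
      have : (0 : ℚ) ≤ N := by positivity
      linarith
    have hX : (0 : ℚ) < ((2 : ℚ) ^ s + 1) ^ 2 * ((N : ℚ) + 1) := by positivity
    -- multiply by the positive number X
    have h3 : B * R * (((2 : ℚ) ^ s + 1) ^ 2 * ((N : ℚ) + 1)) ≤
        Q * Q * (((2 : ℚ) ^ s + 1) ^ 2 * ((N : ℚ) + 1)) := by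
      have h4 : B * ((R : ℚ) * ((2 : ℚ) ^ s + 1) ^ 2 * ((N : ℚ) + 1) ^ 2) ≤ B * (Q * ε ^ 2) :=
        mul_le_mul_of_nonneg_left hR hB0
      have h5 : B * R * (((2 : ℚ) ^ s + 1) ^ 2 * ((N : ℚ) + 1)) ≤
          B * ((R : ℚ) * ((2 : ℚ) ^ s + 1) ^ 2 * ((N : ℚ) + 1) ^ 2) := by
        have h6 : 0 ≤ B * R * (((2 : ℚ) ^ s + 1) ^ 2 * ((N : ℚ) + 1)) := by positivity
        calc B * R * (((2 : ℚ) ^ s + 1) ^ 2 * ((N : ℚ) + 1))
            ≤ B * R * (((2 : ℚ) ^ s + 1) ^ 2 * ((N : ℚ) + 1)) * ((N : ℚ) + 1) :=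
              le_mul_of_one_le_right h6 hN
          _ = B * ((R : ℚ) * ((2 : ℚ) ^ s + 1) ^ 2 * ((N : ℚ) + 1) ^ 2) := by ring
      calc B * R * (((2 : ℚ) ^ s + 1) ^ 2 * ((N : ℚ) + 1))
          ≤ B * (Q * ε ^ 2) := h5.trans h4
        _ = (B * ε ^ 2) * Q := by ring
        _ ≤ ((2 ^ s + 1) * ((2 ^ s + 1) * ((N + 1) * Q))) * Q := by gcongr
        _ = Q * Q * (((2 : ℚ) ^ s + 1) ^ 2 * ((N : ℚ) + 1)) := by ring
    exact le_of_mul_le_mul_right h3 hX
  have hcardH : Fintype.card (ZMod Q × ZMod Q) = Q * Q := by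
    rw [Fintype.card_prod, ZMod.card]
  rw [hcardH]
  exact_mod_cast hfin

end Vale.Agent.P313.H577

namespace Vale.Agent.P313.H577

open Finset MW

/-- MODULE C. -/
theorem modC : MW.ModC := by
  intro ι A T N s Q R ε hT hQp hs hR0 hε hR hA
  have : Fact Q.Prime := ⟨hQp⟩
  classical
  obtain ⟨p, hp, hpc⟩ := exists_pool (H := ZMod Q × ZMod Q) (B := A) R (by omega)
    (fun a => Bad N s ε (T a))
    (fun a ch => by
      have := card_bad (Q := Q) (s := s) hε (hT a) ch hR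
      convert this using 3) (2 * s) (s + 1) (by
      rw [Fintype.card_coe, mul_comm]; exact hA)
  refine ⟨alp p, bep p, fun c => ⟨ZMod.val_lt _, ZMod.val_lt _⟩, fun a ha => ?_⟩
  obtain ⟨ch, hsub, hgood, hlen⟩ := hpc ⟨a, ha⟩
  have hlen' : s ≤ ch.length := by omega
  have hsub' : (ch.take s).Sublist p := (List.take_sublist s ch).trans hsub
  have hgood' := hgood.take s
  have hls : (ch.take s).length = s := by simp [hlen']
  obtain ⟨C, hC, _, hlab⟩ := exists_mask p (ch.take s) hsub'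
  rw [hp] at hC hlab
  refine ⟨C, hC, fun i t hit u hu => ?_⟩
  have he := chain_error hQp.pos hε (hT a) (ch.take s) hgood' t (by rw [hls]; omega) i hit u hu
  have hcw : ∀ v, (cw Q (2 * s) (alp p) (bep p) (T a) C i t u v : ℚ) / Q =
      av (T a) (ch.take s) i t u v := by
    intro v
    unfold cw av
    simp only [hlab]
  simp only [hcw]
  refine he.trans ?_
  have h1 : ((t - 1 : ℕ) : ℚ) ≤ 2 ^ s := by
    have : t - 1 ≤ 2 ^ s := by omega
    exact_mod_cast this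
  have h2 : (0 : ℚ) ≤ ((N : ℚ) + 1) * ε := by positivity
  exact mul_le_mul_of_nonneg_right h1 h2

end Vale.Agent.P313.H577
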